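import Vale.Agent.P133F.Defs

/-! Internal notions for the proof. -/

namespace Vale.Agent.P133F

open scoped CStarAlgebra ComplexOrder
open Vale.Agent.P133.Statement

universe u

variable (A : Type u) [NonUnitalCStarAlgebra A] [PartialOrder A] [StarOrderedRing A]

/-- Elementwise weak pure infiniteness with constant `n`: for all `M`, the `M`-fold multiple of
every positive `h` is approximately below its `n`-fold multiple. -/
def WPI (n : ℕ) : Prop :=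
  ∀ h : A, 0 ≤ h → ∀ (M : ℕ) (ε : ℝ), 0 < ε → ∃ z : Fin n → Fin M → A,
    ∀ j j', ‖∑ i, star (z i j) * h * z i j' - (if j = j' then h else 0)‖ < ε

/-- Approximately central `N × M` matrices `Y` with `Y* Y = g ⊗ 1` and `g` bounded below. -/
def RC (N : ℕ) (K c : ℝ) : Prop :=
  ∀ (M : ℕ) (T : Finset A) (ε : ℝ), 0 < ε → ∃ (Y : Fin N → Fin M → A) (g u : A),
    0 ≤ g ∧ ‖g‖ ≤ K ∧ 0 ≤ u ∧ ‖u‖ ≤ 1 ∧ c • (u * u * (u * u)) ≤ g ∧
    (∀ a ∈ T, ‖u * a - a‖ < ε) ∧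
    (∀ a ∈ T, ∀ i j, ‖Y i j * a - a * Y i j‖ < ε) ∧
    (∀ j j', ‖∑ i, star (Y i j) * Y i j' - (if j = j' then g else 0)‖ < ε)

/-- Approximately central `N × M` matrices that are approximately isometric. -/
def RCiso (N : ℕ) : Prop :=
  ∀ (M : ℕ) (T : Finset A) (ε : ℝ), 0 < ε → ∃ S : Fin N → Fin M → A,
    (∀ i j, ‖S i j‖ ≤ 2) ∧
    (∀ a ∈ T, ∀ i j, ‖S i j * a - a * S i j‖ < ε) ∧
    (∀ a ∈ T, ∀ j j', ‖(∑ i, star (S i j) * S i j') * a - (if j = j' then a else 0)‖ < ε)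

end Vale.Agent.P133F
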