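import Mathlib.Algebra.Order.Star.Pi
import Mathlib.Analysis.CStarAlgebra.CompletelyPositiveMap
import Vale.Agent.P133.SDefs

/-!
Definitions for the result on C*-algebras of finite nuclear dimension (P133, question (b)).
`A` is an arbitrary, possibly nonunital, complex C*-algebra.
-/

namespace Vale.Agent.P133F

open scoped CStarAlgebra ComplexOrder
open Vale.Agent.P133.Statement

universe u

variable {A : Type u} [NonUnitalCStarAlgebra A] [PartialOrder A] [StarOrderedRing A]

/-- The block diagonal matrix `diag (u, v)`. -/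
def dsum {k l : ℕ} (u : CStarMatrix (Fin k) (Fin k) A) (v : CStarMatrix (Fin l) (Fin l) A) :
    CStarMatrix (Fin (k + l)) (Fin (k + l)) A :=
  CStarMatrix.ofMatrix
    (Matrix.reindex finSumFinEquiv finSumFinEquiv
      (Matrix.fromBlocks (CStarMatrix.ofMatrix.symm u) 0 0 (CStarMatrix.ofMatrix.symm v)))

/-- The `n`-fold diagonal amplification `diag (h, …, h)` of `h`. -/
def diagN (n : ℕ) (h : A) : CStarMatrix (Fin n) (Fin n) A :=
  CStarMatrix.ofMatrix (Matrix.diagonal fun _ => h)

/-- A positive matrix `u` over `A` is properly infinite if `diag (u, u)` is Cuntz below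
`diag (u, 0)` (comparison in the stabilization of `A`). -/
def ProperlyInfiniteMat {k : ℕ} (u : CStarMatrix (Fin k) (Fin k) A) : Prop :=
  CuntzLE (dsum u u) (dsum u (0 : CStarMatrix (Fin k) (Fin k) A))

variable (A) in
/-- `A` is weakly purely infinite if for some `n ≥ 1` the `n`-fold diagonal amplification of every
positive element of `A` is properly infinite. -/
def WeaklyPurelyInfinite : Prop :=
  ∃ n : ℕ, 1 ≤ n ∧ ∀ h : A, 0 ≤ h → ProperlyInfiniteMat (diagN n h)

/-- The finite-dimensional C*-algebra `⨁ b, M_{k b}(ℂ)`. -/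
abbrev FD {r : ℕ} (k : Fin r → ℕ) : Type :=
  (b : Fin r) → CStarMatrix (Fin (k b)) (Fin (k b)) ℂ

/-- A completely positive map on a finite-dimensional C*-algebra has order zero if it preserves
orthogonality of positive elements. -/
def IsOrderZero {r : ℕ} {k : Fin r → ℕ} (φ : FD k →CP A) : Prop :=
  ∀ x y : FD k, 0 ≤ x → 0 ≤ y → x * y = 0 → φ x * φ y = 0

variable (A) in
/-- `A` has nuclear dimension at most `d`: for every finite subset `T` of `A` and `ε > 0` there are
finite-dimensional C*-algebras `F_0, …, F_d`, completely positive contractions `ψ_l : A → F_l` and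
completely positive contractions `φ_l : F_l → A` of order zero with
`‖φ_0 (ψ_0 a) + ⋯ + φ_d (ψ_d a) - a‖ < ε` for all `a ∈ T`. -/
def NuclearDimensionLE (d : ℕ) : Prop :=
  ∀ (T : Finset A) (ε : ℝ), 0 < ε →
    ∃ (r : Fin (d + 1) → ℕ) (k : (l : Fin (d + 1)) → Fin (r l) → ℕ)
      (ψ : (l : Fin (d + 1)) → (A →CP FD (k l))) (φ : (l : Fin (d + 1)) → (FD (k l) →CP A)),
      (∀ l a, ‖ψ l a‖ ≤ ‖a‖) ∧ (∀ l x, ‖φ l x‖ ≤ ‖x‖) ∧ (∀ l, IsOrderZero (φ l)) ∧
        ∀ a ∈ T, ‖∑ l, φ l (ψ l a) - a‖ < ε

end Vale.Agent.P133F
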