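import Vale.Agent.P133F.Props
import Mathlib.Topology.ContinuousMap.Weierstrass

/-!
# P133F, block NORM: approximately central matrices can be normalised
-/

namespace Vale.Agent.P133F

open scoped CStarAlgebra ComplexOrder
open Vale.Agent.P133.Statement Filter Topology

universe u

/-- Commutators with polynomials in `g` are controlled by the commutator with `g`. -/
theorem NORM_poly {B : Type u} [CStarAlgebra B] (p : Polynomial ℝ) (K : ℝ) (hK : 0 ≤ K) :
    ∃ C : ℝ, 0 ≤ C ∧ ∀ g a : B, ‖g‖ ≤ K →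
      ‖Polynomial.aeval g p * a - a * Polynomial.aeval g p‖ ≤ C * ‖g * a - a * g‖ := by
  induction p using Polynomial.induction_on' with
  | add p q hp hq =>
    obtain ⟨C, hC, h1⟩ := hp
    obtain ⟨D, hD, h2⟩ := hq
    refine ⟨C + D, add_nonneg hC hD, fun g a hg => ?_⟩
    have e : Polynomial.aeval g (p + q) * a - a * Polynomial.aeval g (p + q) =
        (Polynomial.aeval g p * a - a * Polynomial.aeval g p) +
          (Polynomial.aeval g q * a - a * Polynomial.aeval g q) := by
      rw [map_add]; noncomm_ring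
    rw [e, add_mul]
    exact (norm_add_le _ _).trans (add_le_add (h1 g a hg) (h2 g a hg))
  | monomial n r =>
    have hpow : ∃ C : ℝ, 0 ≤ C ∧ ∀ g a : B, ‖g‖ ≤ K →
        ‖g ^ n * a - a * g ^ n‖ ≤ C * ‖g * a - a * g‖ := by
      induction n with
      | zero => exact ⟨0, le_refl 0, fun g a _ => by simp⟩
      | succ n ih =>
        obtain ⟨C, hC, h1⟩ := ih
        obtain ⟨b, hb, hb'⟩ : ∃ b : ℝ, 0 ≤ b ∧ ∀ g : B, ‖g‖ ≤ K → ‖g ^ n‖ ≤ b := by
          rcases Nat.eq_zero_or_pos n with h0 | h0
          · subst h0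
            exact ⟨‖(1 : B)‖, norm_nonneg _, fun g _ => by rw [pow_zero]⟩
          · exact ⟨K ^ n, pow_nonneg hK n, fun g hg =>
              (norm_pow_le' g h0).trans (pow_le_pow_left₀ (norm_nonneg g) hg n)⟩
        refine ⟨b + C * K, add_nonneg hb (mul_nonneg hC hK), fun g a hg => ?_⟩
        have e : g ^ (n + 1) * a - a * g ^ (n + 1) =
            g ^ n * (g * a - a * g) + (g ^ n * a - a * g ^ n) * g := by
          rw [pow_succ]; noncomm_ring
        rw [e]
        calc ‖g ^ n * (g * a - a * g) + (g ^ n * a - a * g ^ n) * g‖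
            ≤ ‖g ^ n‖ * ‖g * a - a * g‖ + ‖g ^ n * a - a * g ^ n‖ * ‖g‖ :=
              (norm_add_le _ _).trans (add_le_add (norm_mul_le _ _) (norm_mul_le _ _))
          _ ≤ b * ‖g * a - a * g‖ + (C * ‖g * a - a * g‖) * K := by
              refine add_le_add (mul_le_mul_of_nonneg_right (hb' g hg) (norm_nonneg _)) ?_
              exact mul_le_mul (h1 g a hg) hg (norm_nonneg _)
                (mul_nonneg hC (norm_nonneg _))
          _ = (b + C * K) * ‖g * a - a * g‖ := by ring
    obtain ⟨C, hC, h1⟩ := hpow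
    refine ⟨‖r‖ * C, mul_nonneg (norm_nonneg _) hC, fun g a hg => ?_⟩
    rw [Polynomial.aeval_monomial, ← Algebra.smul_def, smul_mul_assoc, mul_smul_comm,
      ← smul_sub, norm_smul, mul_assoc]
    exact mul_le_mul_of_nonneg_left (h1 g a hg) (norm_nonneg _)

/-- Commutators with continuous functions of `g` are small if the commutator with `g` is. -/
theorem NORM_fun {B : Type u} [CStarAlgebra B] [PartialOrder B] [StarOrderedRing B]
    (f : ℝ → ℝ) (hf : Continuous f) (K R : ℝ) (hK : 0 ≤ K) (hR : 0 ≤ R) (ε : ℝ) (hε : 0 < ε) :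
    ∃ δ : ℝ, 0 < δ ∧ ∀ g a : B, 0 ≤ g → ‖g‖ ≤ K → ‖a‖ ≤ R → ‖g * a - a * g‖ < δ →
      ‖cfc f g * a - a * cfc f g‖ < ε := by
  have hτ : 0 < ε / (4 * (R + 1)) := by positivity
  obtain ⟨p, hp⟩ := exists_polynomial_near_of_continuousOn 0 K f hf.continuousOn _ hτ
  obtain ⟨C, hC, hC'⟩ := NORM_poly (B := B) p K hK
  refine ⟨ε / (2 * (C + 1)), by positivity, fun g a hg0 hgK ha hga => ?_⟩
  have hsa : IsSelfAdjoint g := IsSelfAdjoint.of_nonneg hg0
  have hpg : Polynomial.aeval g p = cfc p.eval g := (cfc_polynomial p g hsa).symm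
  have hd : ‖cfc f g - Polynomial.aeval g p‖ ≤ ε / (4 * (R + 1)) := by
    rw [hpg, ← cfc_sub f p.eval g hf.continuousOn p.continuous.continuousOn]
    refine norm_cfc_le hτ.le fun x hx => ?_
    have hx0 : 0 ≤ x := spectrum_nonneg_of_nonneg hg0 hx
    have hxK : x ≤ K := by
      have h1 := IsometricContinuousFunctionalCalculus.norm_spectrum_le g hx hsa
      rw [Real.norm_eq_abs, abs_of_nonneg hx0] at h1
      exact h1.trans hgK
    have := (hp x ⟨hx0, hxK⟩).le
    rw [Real.norm_eq_abs, abs_sub_comm]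
    exact this
  have e : cfc f g * a - a * cfc f g =
      (cfc f g - Polynomial.aeval g p) * a - a * (cfc f g - Polynomial.aeval g p) +
        (Polynomial.aeval g p * a - a * Polynomial.aeval g p) := by noncomm_ring
  have h1 : ‖(cfc f g - Polynomial.aeval g p) * a‖ ≤ ε / (4 * (R + 1)) * R :=
    (norm_mul_le _ _).trans (mul_le_mul hd ha (norm_nonneg _) hτ.le)
  have h2 : ‖a * (cfc f g - Polynomial.aeval g p)‖ ≤ R * (ε / (4 * (R + 1))) :=
    (norm_mul_le _ _).trans (mul_le_mul ha hd (norm_nonneg _) hR)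
  have h3 : ε / (4 * (R + 1)) * R ≤ ε / 4 := by
    rw [div_mul_eq_mul_div, div_le_div_iff₀ (by positivity) (by norm_num)]
    nlinarith
  have h4 : C * ‖g * a - a * g‖ < ε / 2 := by
    calc C * ‖g * a - a * g‖ ≤ (C + 1) * ‖g * a - a * g‖ :=
          mul_le_mul_of_nonneg_right (by linarith) (norm_nonneg _)
      _ < (C + 1) * (ε / (2 * (C + 1))) := by
          refine mul_lt_mul_of_pos_left hga (by linarith)
      _ = ε / 2 := by field_simp
  rw [e]
  calc _ ≤ ‖(cfc f g - Polynomial.aeval g p) * a‖ + ‖a * (cfc f g - Polynomial.aeval g p)‖ +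
        ‖Polynomial.aeval g p * a - a * Polynomial.aeval g p‖ :=
        (norm_add_le _ _).trans (add_le_add (norm_sub_le _ _) le_rfl)
    _ < ε := by
        have := hC' g a hgK
        linarith [mul_comm R (ε / (4 * (R + 1)))]

/-- The normalising function. -/
noncomputable def NORM_f (η : ℝ) (t : ℝ) : ℝ := (Real.sqrt (|t| + η))⁻¹

theorem NORM_f_cont {η : ℝ} (hη : 0 < η) : Continuous (NORM_f η) := by
  unfold NORM_f
  refine Continuous.inv₀ (by fun_prop) fun t => ?_
  have : 0 < |t| + η := by positivity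
  exact (Real.sqrt_pos.2 this).ne'

theorem NORM_f_le {η : ℝ} (hη : 0 < η) (t : ℝ) : ‖NORM_f η t‖ ≤ (Real.sqrt η)⁻¹ := by
  unfold NORM_f
  have h0 : 0 < Real.sqrt η := Real.sqrt_pos.2 hη
  rw [norm_inv, Real.norm_eq_abs, abs_of_nonneg (Real.sqrt_nonneg _)]
  exact inv_anti₀ h0 (Real.sqrt_le_sqrt (by linarith [abs_nonneg t]))

theorem NORM_f_sq {η : ℝ} (hη : 0 < η) {t : ℝ} (ht : 0 ≤ t) :
    NORM_f η t * t * NORM_f η t = t / (t + η) := by
  unfold NORM_f
  rw [abs_of_nonneg ht]
  have h : 0 < t + η := by linarith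
  have hs : 0 < Real.sqrt (t + η) := Real.sqrt_pos.2 h
  have h2 : Real.sqrt (t + η) * Real.sqrt (t + η) = t + η := Real.mul_self_sqrt h.le
  field_simp
  rw [sq, h2]

/-- The estimates for the normalisation in a unital algebra. -/
theorem NORM_core {B : Type u} [CStarAlgebra B] [PartialOrder B] [StarOrderedRing B]
    {η c : ℝ} (hη : 0 < η) (hc : 0 < c) (g u : B) (hg : 0 ≤ g) (hu : 0 ≤ u)
    (hcu : c • (u * u * (u * u)) ≤ g) :
    IsSelfAdjoint (cfc (NORM_f η) g) ∧ ‖cfc (NORM_f η) g‖ ≤ (Real.sqrt η)⁻¹ ∧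
      ‖cfc (NORM_f η) g * g * cfc (NORM_f η) g‖ ≤ 1 ∧
      ‖1 - cfc (NORM_f η) g * g * cfc (NORM_f η) g‖ ≤ 1 ∧
      ‖(1 - cfc (NORM_f η) g * g * cfc (NORM_f η) g) * (u * u)‖ ≤ Real.sqrt (η / c) := by
  have hsa : IsSelfAdjoint g := IsSelfAdjoint.of_nonneg hg
  have hcont := NORM_f_cont hη
  set f := NORM_f η with hf
  have hm : cfc f g * g * cfc f g = cfc (fun t => f t * t * f t) g := by
    rw [cfc_mul (fun t => f t * t) f g (by fun_prop) hcont.continuousOn,
      cfc_mul f (fun t => t) g hcont.continuousOn (by fun_prop), cfc_id' ℝ g hsa]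
  have hD : 1 - cfc f g * g * cfc f g = cfc (fun t => 1 - f t * t * f t) g := by
    rw [hm, cfc_sub (fun _ => (1 : ℝ)) (fun t => f t * t * f t) g (by fun_prop) (by fun_prop),
      cfc_const_one ℝ g hsa]
  have hDgD : cfc (fun t => 1 - f t * t * f t) g * g * cfc (fun t => 1 - f t * t * f t) g =
      cfc (fun t => (1 - f t * t * f t) * t * (1 - f t * t * f t)) g := by
    rw [cfc_mul (fun t => (1 - f t * t * f t) * t) (fun t => 1 - f t * t * f t) g (by fun_prop)
      (by fun_prop), cfc_mul (fun t => 1 - f t * t * f t) (fun t => t) g (by fun_prop)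
      (by fun_prop), cfc_id' ℝ g hsa]
  have hDsa : IsSelfAdjoint (cfc (fun t => 1 - f t * t * f t) g) := cfc_predicate _ g
  have husa : IsSelfAdjoint u := IsSelfAdjoint.of_nonneg hu
  have hb : ∀ t : ℝ, 0 ≤ t → 0 ≤ t / (t + η) ∧ t / (t + η) ≤ 1 := fun t ht =>
    ⟨by positivity, by rw [div_le_one (by linarith)]; linarith⟩
  refine ⟨cfc_predicate _ g, norm_cfc_le (by positivity) fun x _ => NORM_f_le hη x, ?_, ?_, ?_⟩
  · rw [hm]
    refine norm_cfc_le zero_le_one fun x hx => ?_
    have hx0 : 0 ≤ x := spectrum_nonneg_of_nonneg hg hx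
    rw [NORM_f_sq hη hx0, Real.norm_eq_abs, abs_of_nonneg (hb x hx0).1]
    exact (hb x hx0).2
  · rw [hD]
    refine norm_cfc_le zero_le_one fun x hx => ?_
    have hx0 : 0 ≤ x := spectrum_nonneg_of_nonneg hg hx
    rw [NORM_f_sq hη hx0, Real.norm_eq_abs, abs_of_nonneg (by linarith [(hb x hx0).2])]
    linarith [(hb x hx0).1]
  · rw [hD]
    set D := cfc (fun t => 1 - f t * t * f t) g with hDdef
    have h1 : ‖D * g * D‖ ≤ η := by
      rw [hDgD]
      refine norm_cfc_le hη.le fun x hx => ?_
      have hx0 : 0 ≤ x := spectrum_nonneg_of_nonneg hg hx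
      rw [NORM_f_sq hη hx0]
      obtain ⟨h2, h3⟩ := hb x hx0
      have h4 : (1 - x / (x + η)) * x = η * (x / (x + η)) := by
        have : x + η ≠ 0 := by linarith
        field_simp
        ring
      rw [h4, Real.norm_eq_abs, abs_of_nonneg (by
        refine mul_nonneg (mul_nonneg hη.le h2) (by linarith))]
      calc η * (x / (x + η)) * (1 - x / (x + η)) ≤ η * 1 * 1 := by
            refine mul_le_mul (mul_le_mul_of_nonneg_left h3 hη.le) (by linarith) (by linarith)
              (by linarith)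
        _ = η := by ring
    have h2 : D * (c • (u * u * (u * u))) * D ≤ D * g * D :=
      hDsa.conjugate_le_conjugate hcu
    have h3 : (0 : B) ≤ D * (c • (u * u * (u * u))) * D := by
      have h0 : (0 : B) ≤ c • (u * u * (u * u)) := by
        refine smul_nonneg hc.le ?_
        have : u * u * (u * u) = star (u * u) * (u * u) := by
          rw [star_mul, husa.star_eq]
        rw [this]
        exact star_mul_self_nonneg _
      have := hDsa.conjugate_le_conjugate h0
      simpa using this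
    have h4 : ‖D * (c • (u * u * (u * u))) * D‖ ≤ η :=
      (CStarAlgebra.norm_le_norm_of_nonneg_of_le h3 h2).trans h1
    have h5 : D * (c • (u * u * (u * u))) * D = c • ((D * (u * u)) * star (D * (u * u))) := by
      rw [star_mul, star_mul, husa.star_eq, hDsa.star_eq, mul_smul_comm, smul_mul_assoc]
      congr 1
      noncomm_ring
    rw [h5, norm_smul, CStarRing.norm_self_mul_star, Real.norm_eq_abs, abs_of_pos hc] at h4
    refine Real.le_sqrt_of_sq_le ?_
    rw [sq, le_div_iff₀ hc]
    linarith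

/-- The last estimate. -/
theorem NORM_tail {B : Type u} [CStarAlgebra B] {x q w a d : B} {R ε ε' r : ℝ} (hR : 0 ≤ R)
    (hε : 0 < ε) (hx : ‖x * a‖ ≤ r) (h1 : ‖(1 - q) * w‖ ≤ ε / (4 * (R + 1))) (ha : ‖a‖ ≤ R)
    (hD1 : ‖1 - q‖ ≤ 1) (hd : ‖d‖ ≤ 2 * ε') (hd' : a = w * a + d)
    (hb : r + 2 * ε' ≤ ε / 4) : ‖(x + q) * a - a‖ < ε := by
  have e : (x + q) * a - a = x * a - ((1 - q) * w * a + (1 - q) * d) := by
    have : (1 - q) * a = (1 - q) * w * a + (1 - q) * d := by
      conv_lhs => rw [hd']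
      noncomm_ring
    rw [← this]
    noncomm_ring
  rw [e]
  have h2 : ‖(1 - q) * w * a‖ ≤ ε / 4 := by
    refine (norm_mul_le _ _).trans ?_
    calc ‖(1 - q) * w‖ * ‖a‖ ≤ (ε / (4 * (R + 1))) * R :=
          mul_le_mul h1 ha (norm_nonneg _) (by positivity)
      _ ≤ ε / 4 := by
          rw [div_mul_eq_mul_div, div_le_div_iff₀ (by positivity) (by norm_num)]
          nlinarith
  have h3 : ‖(1 - q) * d‖ ≤ 2 * ε' := by
    refine (norm_mul_le _ _).trans ?_
    calc ‖1 - q‖ * ‖d‖ ≤ 1 * (2 * ε') := mul_le_mul hD1 hd (norm_nonneg _) zero_le_one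
      _ = 2 * ε' := one_mul _
  calc _ ≤ ‖x * a‖ + ‖(1 - q) * w * a + (1 - q) * d‖ := norm_sub_le _ _
    _ ≤ ‖x * a‖ + (‖(1 - q) * w * a‖ + ‖(1 - q) * d‖) := add_le_add le_rfl (norm_add_le _ _)
    _ < ε := by linarith

variable {A : Type u} [NonUnitalCStarAlgebra A] [PartialOrder A] [StarOrderedRing A]

omit [PartialOrder A] [StarOrderedRing A] in
theorem NORM_inr_sum {ι : Type*} (s : Finset ι) (F : ι → A) :
    ((∑ i ∈ s, F i : A) : Unitization ℂ A) = ∑ i ∈ s, (F i : Unitization ℂ A) :=
  map_sum (Unitization.inrNonUnitalStarAlgHom ℂ A) F s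

theorem rciso_of_rc {N : ℕ} {K c : ℝ} (hc : 0 < c) (h : RC A N K c) : RCiso A N := by
  classical
  intro M T ε hε
  rcases Nat.eq_zero_or_pos M with hM | hM
  · subst hM
    exact ⟨fun _ _ => 0, fun _ j => j.elim0, fun _ _ _ j => j.elim0, fun _ _ j => j.elim0⟩
  -- `K` is nonnegative
  have hK : 0 ≤ K := by
    obtain ⟨Y, g, u, h1, h2, -⟩ := h 0 ∅ 1 one_pos
    exact (norm_nonneg g).trans h2
  set R : ℝ := ∑ a ∈ T, ‖a‖ with hRdef
  have hR : 0 ≤ R := Finset.sum_nonneg fun a _ => norm_nonneg a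
  have hRT : ∀ a ∈ T, ‖a‖ ≤ R := fun a ha =>
    Finset.single_le_sum (f := fun a => ‖a‖) (fun b _ => norm_nonneg b) ha
  set η : ℝ := c * (ε / (4 * (R + 1))) ^ 2 with hηdef
  have hη : 0 < η := by positivity
  have hηc : Real.sqrt (η / c) = ε / (4 * (R + 1)) := by
    rw [hηdef, mul_div_cancel_left₀ _ hc.ne', Real.sqrt_sq (by positivity)]
  have hsη : 0 < Real.sqrt η := Real.sqrt_pos.2 hη
  obtain ⟨δ, hδ, hcomm⟩ := NORM_fun (B := Unitization ℂ A) (NORM_f η) (NORM_f_cont hη) K R hK hR
    (ε / (2 * (K + 2))) (by positivity)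
  set ε' : ℝ := min (min (min 1 η) (ε / (4 * (R / η + 2)))) (min (Real.sqrt η * ε / 4)
    (δ / (2 * (2 * R + 2 * N * (K + 1) + 1)))) with hε'def
  have hε' : 0 < ε' := by
    refine lt_min (lt_min (lt_min one_pos hη) (by positivity)) (lt_min (by positivity)
      (by positivity))
  have he1 : ε' ≤ 1 := (min_le_left _ _).trans ((min_le_left _ _).trans (min_le_left _ _))
  have he2 : ε' ≤ η := (min_le_left _ _).trans ((min_le_left _ _).trans (min_le_right _ _))
  have he3 : ε' ≤ ε / (4 * (R / η + 2)) := (min_le_left _ _).trans (min_le_right _ _)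
  have he4 : ε' ≤ Real.sqrt η * ε / 4 := (min_le_right _ _).trans (min_le_left _ _)
  have he5 : ε' ≤ δ / (2 * (2 * R + 2 * N * (K + 1) + 1)) :=
    (min_le_right _ _).trans (min_le_right _ _)
  obtain ⟨Y, g, u, hg, hgK, hu, hu1, hcu, hua, hYa, hYY⟩ := h M (T ∪ T.image star) ε' hε'
  -- pass to the unitization
  have hgB : (0 : Unitization ℂ A) ≤ (g : Unitization ℂ A) := Unitization.inr_nonneg_iff.2 hg
  have huB : (0 : Unitization ℂ A) ≤ (u : Unitization ℂ A) := Unitization.inr_nonneg_iff.2 hu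
  have hcuB : c • ((u : Unitization ℂ A) * u * ((u : Unitization ℂ A) * u)) ≤
      (g : Unitization ℂ A) := by
    rw [← sub_nonneg] at hcu ⊢
    have := Unitization.inr_nonneg_iff.2 hcu
    simpa [Unitization.inr_sub, Unitization.inr_mul] using this
  obtain ⟨hPsa, hPn, hPgP, hD1, hD2⟩ := NORM_core hη hc (g : Unitization ℂ A) u hgB huB hcuB
  set P : Unitization ℂ A := cfc (NORM_f η) (g : Unitization ℂ A) with hPdef
  have hS : ∀ i j, (((Y i j : Unitization ℂ A) * P).snd : Unitization ℂ A) =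
      (Y i j : Unitization ℂ A) * P := by
    intro i j
    refine Unitization.ext ?_ ?_
    · simp
    · simp
  have hPn' : ∀ x : Unitization ℂ A, ‖P * x * P‖ ≤ ‖x‖ / η := by
    intro x
    have h1 : ‖P * x * P‖ ≤ (Real.sqrt η)⁻¹ * ‖x‖ * (Real.sqrt η)⁻¹ := by
      refine (norm_mul_le _ _).trans (mul_le_mul ?_ hPn (norm_nonneg _) (by positivity))
      exact (norm_mul_le _ _).trans (mul_le_mul_of_nonneg_right hPn (norm_nonneg _))
    refine h1.trans (le_of_eq ?_)
    have h2 : Real.sqrt η * Real.sqrt η = η := Real.mul_self_sqrt hη.le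
    have h3 : (Real.sqrt η)⁻¹ * ‖x‖ * (Real.sqrt η)⁻¹ * (Real.sqrt η * Real.sqrt η) = ‖x‖ := by
      field_simp
    rw [h2] at h3
    rw [eq_div_iff hη.ne', h3]
  -- bounds for `Y`
  have hYn : ∀ i j, ‖Y i j‖ ≤ K + 1 := by
    intro i j
    have h1 : ‖star (Y i j) * Y i j‖ ≤ ‖∑ i, star (Y i j) * Y i j‖ :=
      CStarAlgebra.norm_le_norm_of_nonneg_of_le (star_mul_self_nonneg _)
        (Finset.single_le_sum (f := fun i => star (Y i j) * Y i j)
          (fun _ _ => star_mul_self_nonneg _) (Finset.mem_univ i))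
    have h2 : ‖∑ i, star (Y i j) * Y i j‖ ≤ K + 1 := by
      have h3 := hYY j j
      rw [if_pos rfl] at h3
      calc ‖∑ i, star (Y i j) * Y i j‖ = ‖(∑ i, star (Y i j) * Y i j - g) + g‖ := by
            rw [sub_add_cancel]
        _ ≤ ε' + K := (norm_add_le _ _).trans (add_le_add h3.le hgK)
        _ ≤ K + 1 := by linarith
    rw [CStarRing.norm_star_mul_self] at h1
    have h4 : ‖Y i j‖ * ‖Y i j‖ ≤ K + 1 := h1.trans h2
    by_contra hcon
    push Not at hcon
    nlinarith [norm_nonneg (Y i j)]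
  -- the Gram matrix
  have hG : ∀ j j', ((∑ i, star (((Y i j : Unitization ℂ A) * P).snd) *
      (((Y i j' : Unitization ℂ A) * P).snd) : A) : Unitization ℂ A) =
      P * ((∑ i, star (Y i j) * Y i j' - (if j = j' then g else 0) : A) : Unitization ℂ A) * P +
        (if j = j' then P * (g : Unitization ℂ A) * P else 0) := by
    intro j j'
    have h1 : P * ((∑ i, star (Y i j) * Y i j' - (if j = j' then g else 0) : A) :
        Unitization ℂ A) * P + (if j = j' then P * (g : Unitization ℂ A) * P else 0) =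
        P * ((∑ i, star (Y i j) * Y i j' : A) : Unitization ℂ A) * P := by
      by_cases hj : j = j'
      · rw [if_pos hj, if_pos hj, Unitization.inr_sub]
        noncomm_ring
      · rw [if_neg hj, if_neg hj, sub_zero, add_zero]
    rw [h1, NORM_inr_sum, NORM_inr_sum, Finset.mul_sum, Finset.sum_mul]
    refine Finset.sum_congr rfl fun i _ => ?_
    rw [Unitization.inr_mul, Unitization.inr_star, hS, hS, star_mul, hPsa.star_eq,
      Unitization.inr_mul, Unitization.inr_star]
    noncomm_ring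
  have hE : ∀ j j', ‖P * ((∑ i, star (Y i j) * Y i j' - (if j = j' then g else 0) : A) :
      Unitization ℂ A) * P‖ ≤ ε' / η := by
    intro j j'
    refine (hPn' _).trans ?_
    rw [Unitization.norm_inr]
    exact div_le_div_of_nonneg_right (hYY j j').le hη.le
  have hTmem : ∀ a ∈ T, a ∈ T ∪ T.image star := fun a ha => Finset.mem_union_left _ ha
  have hTstar : ∀ a ∈ T, star a ∈ T ∪ T.image star := fun a ha =>
    Finset.mem_union_right _ (Finset.mem_image_of_mem _ ha)
  refine ⟨fun i j => ((Y i j : Unitization ℂ A) * P).snd, ?_, ?_, ?_⟩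
  · intro i j
    set s : A := ((Y i j : Unitization ℂ A) * P).snd with hs
    have h1 : ‖star s * s‖ ≤ ‖∑ i, star (((Y i j : Unitization ℂ A) * P).snd) *
        (((Y i j : Unitization ℂ A) * P).snd)‖ :=
      CStarAlgebra.norm_le_norm_of_nonneg_of_le (star_mul_self_nonneg _)
        (Finset.single_le_sum (f := fun i => star (((Y i j : Unitization ℂ A) * P).snd) *
          (((Y i j : Unitization ℂ A) * P).snd))
          (fun _ _ => star_mul_self_nonneg _) (Finset.mem_univ i))
    have h2 : ‖∑ i, star (((Y i j : Unitization ℂ A) * P).snd) *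
        (((Y i j : Unitization ℂ A) * P).snd)‖ ≤ 2 := by
      rw [← Unitization.norm_inr (𝕜 := ℂ), hG j j, if_pos rfl, if_pos rfl]
      have h3 := hE j j
      rw [if_pos rfl] at h3
      have h4 : ε' / η ≤ 1 := (div_le_one hη).2 he2
      refine (norm_add_le _ _).trans ?_
      linarith
    rw [CStarRing.norm_star_mul_self] at h1
    nlinarith [norm_nonneg s, h1.trans h2]
  · intro a ha i j
    rw [← Unitization.norm_inr (𝕜 := ℂ), Unitization.inr_sub, Unitization.inr_mul,
      Unitization.inr_mul, hS]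
    have hst : ∀ i j, ‖star (Y i j) * a - a * star (Y i j)‖ ≤ ε' := by
      intro i j
      have h1 := (hYa (star a) (hTstar a ha) i j).le
      rw [← norm_star, star_sub, star_mul, star_mul, star_star] at h1
      rw [norm_sub_rev]
      exact h1
    have hga : ‖g * a - a * g‖ < δ := by
      set j0 : Fin M := ⟨0, hM⟩
      set E : A := ∑ i, star (Y i j0) * Y i j0 - g with hEdef
      have hEn : ‖E‖ ≤ ε' := by
        have := (hYY j0 j0).le
        rwa [if_pos rfl] at this
      have e1 : g * a - a * g = (∑ i, (star (Y i j0) * (Y i j0 * a - a * Y i j0) +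
          (star (Y i j0) * a - a * star (Y i j0)) * Y i j0)) - (E * a - a * E) := by
        have e2 : ∑ i, (star (Y i j0) * (Y i j0 * a - a * Y i j0) +
          (star (Y i j0) * a - a * star (Y i j0)) * Y i j0) =
            (∑ i, star (Y i j0) * Y i j0) * a - a * (∑ i, star (Y i j0) * Y i j0) := by
          rw [Finset.sum_mul, Finset.mul_sum, ← Finset.sum_sub_distrib]
          refine Finset.sum_congr rfl fun i _ => ?_
          noncomm_ring
        rw [e2, hEdef]
        noncomm_ring
      have e3 : ‖∑ i, (star (Y i j0) * (Y i j0 * a - a * Y i j0) +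
          (star (Y i j0) * a - a * star (Y i j0)) * Y i j0)‖ ≤
            N * ((K + 1) * ε' + ε' * (K + 1)) := by
        refine (norm_sum_le _ _).trans ?_
        refine (Finset.sum_le_card_nsmul _ _ ((K + 1) * ε' + ε' * (K + 1)) fun i _ => ?_).trans ?_
        · refine (norm_add_le _ _).trans (add_le_add ?_ ?_)
          · refine (norm_mul_le _ _).trans ?_
            rw [norm_star]
            exact mul_le_mul (hYn i j0) (hYa a (hTmem a ha) i j0).le (norm_nonneg _)
              (by linarith)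
          · refine (norm_mul_le _ _).trans ?_
            exact mul_le_mul (hst i j0) (hYn i j0) (norm_nonneg _) hε'.le
        · rw [Finset.card_univ, Fintype.card_fin, nsmul_eq_mul]
      have e4 : ‖E * a - a * E‖ ≤ 2 * R * ε' := by
        refine (norm_sub_le _ _).trans ?_
        have h5 : ‖E * a‖ ≤ ε' * R :=
          (norm_mul_le _ _).trans (mul_le_mul hEn (hRT a ha) (norm_nonneg _) hε'.le)
        have h6 : ‖a * E‖ ≤ R * ε' :=
          (norm_mul_le _ _).trans (mul_le_mul (hRT a ha) hEn (norm_nonneg _) hR)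
        linarith
      rw [e1]
      refine (norm_sub_le _ _).trans_lt ?_
      have hX : 0 ≤ 2 * R + 2 * N * (K + 1) := by positivity
      have h7 : ε' * (2 * R + 2 * N * (K + 1)) < δ := by
        have h8 := (le_div_iff₀ (by positivity)).1 he5
        nlinarith
      linarith
    have hPa := hcomm (g : Unitization ℂ A) (a : Unitization ℂ A) hgB
      (by rw [Unitization.norm_inr]; exact hgK) (by rw [Unitization.norm_inr]; exact hRT a ha)
      (by rw [← Unitization.inr_mul, ← Unitization.inr_mul, ← Unitization.inr_sub,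
            Unitization.norm_inr]; exact hga)
    rw [← hPdef] at hPa
    have e : (Y i j : Unitization ℂ A) * P * a - a * ((Y i j : Unitization ℂ A) * P) =
        (Y i j : Unitization ℂ A) * (P * a - a * P) +
          ((Y i j * a - a * Y i j : A) : Unitization ℂ A) * P := by
      rw [Unitization.inr_sub, Unitization.inr_mul, Unitization.inr_mul]
      noncomm_ring
    rw [e]
    have h1 : ‖(Y i j : Unitization ℂ A) * (P * a - a * P)‖ ≤ (K + 1) * (ε / (2 * (K + 2))) := by
      refine (norm_mul_le _ _).trans (mul_le_mul ?_ hPa.le (norm_nonneg _) (by linarith))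
      rw [Unitization.norm_inr]
      exact hYn i j
    have h2 : ‖((Y i j * a - a * Y i j : A) : Unitization ℂ A) * P‖ ≤ ε / 4 := by
      refine (norm_mul_le _ _).trans ?_
      rw [Unitization.norm_inr]
      calc ‖Y i j * a - a * Y i j‖ * ‖P‖ ≤ (Real.sqrt η * ε / 4) * (Real.sqrt η)⁻¹ :=
            mul_le_mul ((hYa a (hTmem a ha) i j).le.trans he4) hPn (norm_nonneg _)
              (by positivity)
        _ = ε / 4 := by field_simp
    have h3 : (K + 1) * (ε / (2 * (K + 2))) ≤ ε / 2 := by
      rw [mul_div_assoc', div_le_div_iff₀ (by positivity) (by norm_num)]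
      nlinarith
    calc _ ≤ _ := norm_add_le _ _
      _ < ε := by linarith
  · intro a ha j j'
    set x : Unitization ℂ A := P * ((∑ i, star (Y i j) * Y i j' - (if j = j' then g else 0) : A) :
      Unitization ℂ A) * P with hx
    have hxn : ‖x * a‖ ≤ ε' / η * R := by
      refine (norm_mul_le _ _).trans (mul_le_mul (hE j j') ?_ (norm_nonneg _) (by positivity))
      rw [Unitization.norm_inr]
      exact hRT a ha
    have hbound : ε' * (R / η + 2) ≤ ε / 4 := by
      have h8 := (le_div_iff₀ (by positivity)).1 he3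
      linarith
    have hbound' : ε' / η * R = ε' * (R / η) := by ring
    have hbound2 : ε' * (R / η) + 2 * ε' ≤ ε / 4 := by linarith
    rw [← Unitization.norm_inr (𝕜 := ℂ), Unitization.inr_sub, Unitization.inr_mul, hG j j', ← hx]
    by_cases hj : j = j'
    · rw [if_pos hj, if_pos hj]
      rw [hηc] at hD2
      have h3 : ‖a - u * a‖ ≤ ε' := by
        rw [norm_sub_rev]
        exact (hua a (hTmem a ha)).le
      have h4 : ‖(((a - u * a) + u * (a - u * a) : A) : Unitization ℂ A)‖ ≤ 2 * ε' := by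
        rw [Unitization.norm_inr]
        refine (norm_add_le _ _).trans ?_
        have h5 : ‖u * (a - u * a)‖ ≤ 1 * ε' :=
          (norm_mul_le _ _).trans (mul_le_mul hu1 h3 (norm_nonneg _) zero_le_one)
        linarith
      refine NORM_tail hR hε hxn hD2 (by rw [Unitization.norm_inr]; exact hRT a ha) hD1 h4 ?_
        (by linarith)
      rw [← Unitization.inr_mul, ← Unitization.inr_mul, ← Unitization.inr_add]
      congr 1
      noncomm_ring
    · rw [if_neg hj, if_neg hj, add_zero, Unitization.inr_zero, sub_zero]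
      refine hxn.trans_lt ?_
      linarith

end Vale.Agent.P133F
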