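import Vale.Agent.P133F.Props

/-!
# P133F, block Q1: a sequence of mutually almost commuting almost isometric matrices
-/

namespace Vale.Agent.P133F

open scoped CStarAlgebra ComplexOrder
open Vale.Agent.P133.Statement Filter Topology

universe u

variable {A : Type u} [NonUnitalCStarAlgebra A] [PartialOrder A] [StarOrderedRing A]

open Classical in
/-- For a fixed `ε`, a sequence of matrices with the required properties up to `ε`. -/
theorem Q1_eps {N : ℕ} (hR : RCiso A N) (h : A) (M : ℕ) (ε : ℝ) (hε : 0 < ε) :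
    ∃ S : ℕ → Fin N → Fin M → A, (∀ m i j, ‖S m i j‖ ≤ 2) ∧
      (∀ m m', m' < m → ∀ i j i' j', ‖S m i j * S m' i' j' - S m' i' j' * S m i j‖ < ε) ∧
      (∀ m m', m' < m → ∀ i j i' j',
        ‖S m i j * star (S m' i' j') - star (S m' i' j') * S m i j‖ < ε) ∧
      (∀ m i j, ‖S m i j * h - h * S m i j‖ < ε) ∧
      (∀ m j j', ‖(∑ i, star (S m i j) * S m i j') * h - (if j = j' then h else 0)‖ < ε) := by
  choose F hF1 hF2 hF3 using fun T : Finset A => hR M T ε hε
  let nxt : Finset A → Finset A := fun T =>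
    T ∪ (Finset.univ.image fun p : Fin N × Fin M => F T p.1 p.2) ∪
      (Finset.univ.image fun p : Fin N × Fin M => star (F T p.1 p.2))
  let T : ℕ → Finset A := fun m => nxt^[m] {h}
  have hT0 : T 0 = {h} := rfl
  have hTs : ∀ m, T (m + 1) = nxt (T m) := fun m => Function.iterate_succ_apply' nxt m {h}
  have hsub : ∀ m, T m ⊆ T (m + 1) := by
    intro m a ha
    rw [hTs]
    exact Finset.mem_union_left _ (Finset.mem_union_left _ ha)
  have hmono : ∀ m n, m ≤ n → T m ⊆ T n := by
    intro m n hmn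
    induction n, hmn using Nat.le_induction with
    | base => exact subset_rfl
    | succ n _ ih => exact ih.trans (hsub n)
  have hh : ∀ m, h ∈ T m := fun m => hmono 0 m (Nat.zero_le m) (by rw [hT0]; simp)
  have hS : ∀ m m', m' < m → ∀ i j, F (T m') i j ∈ T m := by
    intro m m' hm i j
    refine hmono (m' + 1) m hm ?_
    rw [hTs]
    exact Finset.mem_union_left _ (Finset.mem_union_right _
      (Finset.mem_image.2 ⟨(i, j), Finset.mem_univ _, rfl⟩))
  have hS' : ∀ m m', m' < m → ∀ i j, star (F (T m') i j) ∈ T m := by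
    intro m m' hm i j
    refine hmono (m' + 1) m hm ?_
    rw [hTs]
    exact Finset.mem_union_right _ (Finset.mem_image.2 ⟨(i, j), Finset.mem_univ _, rfl⟩)
  refine ⟨fun m => F (T m), fun m i j => hF1 (T m) i j, ?_, ?_, ?_, ?_⟩
  · intro m m' hm i j i' j'
    exact hF2 (T m) _ (hS m m' hm i' j') i j
  · intro m m' hm i j i' j'
    exact hF2 (T m) _ (hS' m m' hm i' j') i j
  · intro m i j
    exact hF2 (T m) _ (hh m) i j
  · intro m j j'
    exact hF3 (T m) _ (hh m) j j'

theorem exists_seq {N : ℕ} (hR : RCiso A N) (h : A) (M : ℕ) :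
    ∃ s : ℕ → ℕ → Fin N → Fin M → A, (∀ m k i j, ‖s m k i j‖ ≤ 2) ∧
      (∀ m m', m ≠ m' → ∀ i j i' j',
        Tendsto (fun k => ‖s m k i j * s m' k i' j' - s m' k i' j' * s m k i j‖) atTop (𝓝 0)) ∧
      (∀ m m', m ≠ m' → ∀ i j i' j',
        Tendsto (fun k => ‖s m k i j * star (s m' k i' j') - star (s m' k i' j') * s m k i j‖)
          atTop (𝓝 0)) ∧
      (∀ m i j, Tendsto (fun k => ‖s m k i j * h - h * s m k i j‖) atTop (𝓝 0)) ∧
      (∀ m j j', Tendsto (fun k => ‖(∑ i, star (s m k i j) * s m k i j') * h -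
        (if j = j' then h else 0)‖) atTop (𝓝 0)) := by
  choose S h1 h2 h3 h4 h5 using fun k : ℕ =>
    Q1_eps hR h M (1 / ((k : ℝ) + 1)) Nat.one_div_pos_of_nat
  have hlim : Tendsto (fun k : ℕ => 1 / ((k : ℝ) + 1)) atTop (𝓝 0) :=
    tendsto_one_div_add_atTop_nhds_zero_nat
  refine ⟨fun m k => S k m, fun m k i j => h1 k m i j, ?_, ?_, ?_, ?_⟩
  · intro m m' hm i j i' j'
    refine squeeze_zero (fun _ => norm_nonneg _) (fun k => ?_) hlim
    rcases lt_or_gt_of_ne hm with hlt | hgt
    · rw [norm_sub_rev]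
      exact (h2 k m' m hlt i' j' i j).le
    · exact (h2 k m m' hgt i j i' j').le
  · intro m m' hm i j i' j'
    refine squeeze_zero (fun _ => norm_nonneg _) (fun k => ?_) hlim
    rcases lt_or_gt_of_ne hm with hlt | hgt
    · have h6 := (h3 k m' m hlt i' j' i j).le
      rw [← norm_star] at h6
      simpa only [star_sub, star_mul, star_star] using h6
    · exact (h3 k m m' hgt i j i' j').le
  · intro m i j
    exact squeeze_zero (fun _ => norm_nonneg _) (fun k => (h4 k m i j).le) hlim
  · intro m j j'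
    exact squeeze_zero (fun _ => norm_nonneg _) (fun k => (h5 k m j j').le) hlim

end Vale.Agent.P133F
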