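import Vale.Agent.P133F.Props
import Vale.Agent.P133.Bdl.B1
import Mathlib.Analysis.CStarAlgebra.lpSpace
import Mathlib.Analysis.CStarAlgebra.ApproximateUnit

/-! Approximately central isometries give commuting isometries in a quotient of a C*-algebra of
bounded sequences. -/

namespace Vale.Agent.P133F

open scoped CStarAlgebra ComplexOrder ENNReal
open Vale.Agent.P133.Statement Filter Topology

universe u

private theorem q2_closed {E F : Type*} [NormedAddCommGroup E] [NormedAddCommGroup F]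
    (L : ℕ → E → F) (hL : ∀ k x y, L k (x - y) = L k x - L k y) (C : ℝ)
    (hC : ∀ k x, ‖L k x‖ ≤ C * ‖x‖) :
    IsClosed {x | Tendsto (fun k => ‖L k x‖) atTop (𝓝 0)} := by
  apply isClosed_of_closure_subset
  intro x hx
  rw [Metric.mem_closure_iff] at hx
  change Tendsto (fun k => ‖L k x‖) atTop (𝓝 0)
  rw [Metric.tendsto_atTop]
  intro ε hε
  have hC' : 0 < |C| + 1 := by positivity
  obtain ⟨y, hy, hxy⟩ := hx (ε / 2 / (|C| + 1)) (by positivity)
  change Tendsto (fun k => ‖L k y‖) atTop (𝓝 0) at hy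
  rw [Metric.tendsto_atTop] at hy
  obtain ⟨N, hN⟩ := hy (ε / 2) (by positivity)
  refine ⟨N, fun k hk => ?_⟩
  have h1 := hN k hk
  rw [Real.dist_eq, sub_zero, abs_of_nonneg (norm_nonneg _)] at h1 ⊢
  have h2 : L k x = L k y + L k (x - y) := by rw [hL]; abel
  rw [dist_eq_norm] at hxy
  calc ‖L k x‖ ≤ ‖L k y‖ + ‖L k (x - y)‖ := by rw [h2]; exact norm_add_le _ _
    _ ≤ ‖L k y‖ + C * ‖x - y‖ := by gcongr; exact hC _ _
    _ ≤ ‖L k y‖ + (|C| + 1) * ‖x - y‖ := by
        gcongr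
        linarith [le_abs_self C]
    _ < ε / 2 + (|C| + 1) * (ε / 2 / (|C| + 1)) := by
        have := mul_lt_mul_of_pos_left hxy hC'
        linarith
    _ = ε := by field_simp; ring

section Q2a

variable {U : Type u} [CStarAlgebra U]

private theorem q2_bdd (x : lp (fun _ : ℕ => U) ∞) (k : ℕ) : ‖x k‖ ≤ ‖x‖ :=
  lp.norm_apply_le_norm (by simp) x k

private theorem q2_comm_mul (a b h : U) : ‖a * b * h - h * (a * b)‖ ≤
    ‖a‖ * ‖b * h - h * b‖ + ‖a * h - h * a‖ * ‖b‖ := by
  have e : a * b * h - h * (a * b) = a * (b * h - h * b) + (a * h - h * a) * b := by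
    noncomm_ring
  rw [e]
  exact (norm_add_le _ _).trans (add_le_add (norm_mul_le _ _) (norm_mul_le _ _))

variable [Nontrivial U]

/-- The C*-algebra of bounded sequences. -/
noncomputable local instance q2_lp : CStarAlgebra (lp (fun _ : ℕ => U) ∞) where

/-- Bounded sequences asymptotically commuting with `h`. -/
def q2C (h : U) (hs : IsSelfAdjoint h) : StarSubalgebra ℂ (lp (fun _ : ℕ => U) ∞) where
  carrier := {x | Tendsto (fun k => ‖x k * h - h * x k‖) atTop (𝓝 0)}
  mul_mem' := by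
    intro x y hx hy
    refine squeeze_zero (g := fun k => ‖x‖ * ‖y k * h - h * y k‖ + ‖x k * h - h * x k‖ * ‖y‖)
      (fun _ => norm_nonneg _) (fun k => ?_) ?_
    · refine (q2_comm_mul (x k) (y k) h).trans ?_
      gcongr
      · exact q2_bdd x k
      · exact q2_bdd y k
    · have := (hy.const_mul ‖x‖).add (hx.mul_const ‖y‖)
      simpa using this
  one_mem' := by
    show Tendsto (fun k => ‖(1 : U) * h - h * 1‖) atTop (𝓝 0)
    simp
  add_mem' := by
    intro x y hx hy
    refine squeeze_zero (g := fun k => ‖x k * h - h * x k‖ + ‖y k * h - h * y k‖)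
      (fun _ => norm_nonneg _) (fun k => ?_) ?_
    · have e : (x + y) k * h - h * (x + y) k = (x k * h - h * x k) + (y k * h - h * y k) := by
        show (x k + y k) * h - h * (x k + y k) = _
        noncomm_ring
      rw [e]
      exact norm_add_le _ _
    · simpa using hx.add hy
  zero_mem' := by
    show Tendsto (fun k => ‖(0 : U) * h - h * 0‖) atTop (𝓝 0)
    simp
  algebraMap_mem' := by
    intro c
    show Tendsto (fun k => ‖(algebraMap ℂ U c) * h - h * (algebraMap ℂ U c)‖) atTop (𝓝 0)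
    simp [Algebra.commutes c h]
  star_mem' := by
    intro x hx
    show Tendsto (fun k => ‖star (x k) * h - h * star (x k)‖) atTop (𝓝 0)
    have e : ∀ k, ‖star (x k) * h - h * star (x k)‖ = ‖x k * h - h * x k‖ := by
      intro k
      have : star (x k) * h - h * star (x k) = - star (x k * h - h * x k) := by
        rw [star_sub, star_mul, star_mul, hs.star_eq]; abel
      rw [this, norm_neg, norm_star]
    simp_rw [e]
    exact hx

private theorem q2C_mem (h : U) (hs : IsSelfAdjoint h) (x : lp (fun _ : ℕ => U) ∞) :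
    x ∈ q2C h hs ↔ Tendsto (fun k => ‖x k * h - h * x k‖) atTop (𝓝 0) := Iff.rfl

private theorem q2C_closed (h : U) (hs : IsSelfAdjoint h) :
    IsClosed (q2C h hs : Set (lp (fun _ : ℕ => U) ∞)) := by
  apply q2_closed (fun k (x : lp (fun _ : ℕ => U) ∞) => x k * h - h * x k) _ (2 * ‖h‖)
  · intro k x
    calc ‖x k * h - h * x k‖ ≤ ‖x k * h‖ + ‖h * x k‖ := norm_sub_le _ _
      _ ≤ ‖x k‖ * ‖h‖ + ‖h‖ * ‖x k‖ := add_le_add (norm_mul_le _ _) (norm_mul_le _ _)
      _ ≤ ‖x‖ * ‖h‖ + ‖h‖ * ‖x‖ := by gcongr <;> exact q2_bdd x k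
      _ = 2 * ‖h‖ * ‖x‖ := by ring
  · intro k x y
    show (x k - y k) * h - h * (x k - y k) = _
    noncomm_ring

noncomputable local instance q2M (h : U) (hs : IsSelfAdjoint h) : CStarAlgebra (q2C h hs) :=
  StarSubalgebra.cstarAlgebra _ (h_closed := q2C_closed h hs)

private theorem q2_ann_left (h : U) (hs : IsSelfAdjoint h) (a x : q2C h hs)
    (hx : Tendsto (fun k => ‖x.1 k * h‖) atTop (𝓝 0)) :
    Tendsto (fun k => ‖(a * x : q2C h hs).1 k * h‖) atTop (𝓝 0) := by
  refine squeeze_zero (g := fun k => ‖a.1‖ * ‖x.1 k * h‖) (fun _ => norm_nonneg _)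
    (fun k => ?_) (by simpa using hx.const_mul ‖a.1‖)
  have e : (a * x : q2C h hs).1 k * h = a.1 k * (x.1 k * h) := mul_assoc _ _ _
  rw [e]
  refine (norm_mul_le _ _).trans ?_
  gcongr
  exact q2_bdd a.1 k

private theorem q2_ann_right (h : U) (hs : IsSelfAdjoint h) (a x : q2C h hs)
    (hx : Tendsto (fun k => ‖x.1 k * h‖) atTop (𝓝 0)) :
    Tendsto (fun k => ‖(x * a : q2C h hs).1 k * h‖) atTop (𝓝 0) := by
  have ha : Tendsto (fun k => ‖a.1 k * h - h * a.1 k‖) atTop (𝓝 0) := a.2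
  refine squeeze_zero (g := fun k => ‖x.1‖ * ‖a.1 k * h - h * a.1 k‖ + ‖x.1 k * h‖ * ‖a.1‖)
    (fun _ => norm_nonneg _) (fun k => ?_) ?_
  · have e : (x * a : q2C h hs).1 k * h = x.1 k * (a.1 k * h - h * a.1 k) + x.1 k * h * a.1 k := by
      show x.1 k * a.1 k * h = _
      noncomm_ring
    rw [e]
    refine (norm_add_le _ _).trans (add_le_add ((norm_mul_le _ _).trans ?_)
      ((norm_mul_le _ _).trans ?_))
    · gcongr
      exact q2_bdd x.1 k
    · gcongr
      exact q2_bdd a.1 k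
  · simpa using (ha.const_mul ‖x.1‖).add (hx.mul_const ‖a.1‖)

private theorem q2_ann_star (h : U) (hs : IsSelfAdjoint h) (x : q2C h hs)
    (hx : Tendsto (fun k => ‖x.1 k * h‖) atTop (𝓝 0)) :
    Tendsto (fun k => ‖(star x : q2C h hs).1 k * h‖) atTop (𝓝 0) := by
  have hx2 : Tendsto (fun k => ‖x.1 k * h - h * x.1 k‖) atTop (𝓝 0) := x.2
  refine squeeze_zero (g := fun k => ‖x.1 k * h‖ + ‖x.1 k * h - h * x.1 k‖)
    (fun _ => norm_nonneg _) (fun k => ?_) (by simpa using hx.add hx2)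
  have e : ‖(star x : q2C h hs).1 k * h‖ = ‖h * x.1 k‖ := by
    show ‖star (x.1 k) * h‖ = _
    rw [← norm_star (star (x.1 k) * h), star_mul, star_star, hs.star_eq]
  have e2 : h * x.1 k = x.1 k * h - (x.1 k * h - h * x.1 k) := by abel
  rw [e]
  nth_rewrite 1 [e2]
  exact norm_sub_le _ _

/-- Sequences `x` with `x h → 0`. -/
def q2I (h : U) (hs : IsSelfAdjoint h) : P133.CIdeal (q2C h hs) where
  toSub :=
    { carrier := {x | Tendsto (fun k => ‖x.1 k * h‖) atTop (𝓝 0)}
      add_mem' := by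
        intro x y hx hy
        refine squeeze_zero (g := fun k => ‖x.1 k * h‖ + ‖y.1 k * h‖)
          (fun _ => norm_nonneg _) (fun k => ?_) (by simpa using hx.add hy)
        have e : (x + y : q2C h hs).1 k * h = x.1 k * h + y.1 k * h := add_mul _ _ _
        rw [e]
        exact norm_add_le _ _
      zero_mem' := by
        show Tendsto (fun k => ‖(0 : U) * h‖) atTop (𝓝 0)
        simp
      smul_mem' := by
        intro c x hx
        have e : ∀ k, ‖(c • x : q2C h hs).1 k * h‖ = ‖c‖ * ‖x.1 k * h‖ := by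
          intro k
          rw [← norm_smul, ← smul_mul_assoc]
          rfl
        show Tendsto (fun k => ‖(c • x : q2C h hs).1 k * h‖) atTop (𝓝 0)
        simp_rw [e]
        simpa using hx.const_mul ‖c‖ }
  mul_left' a x hx := q2_ann_left h hs a x hx
  mul_right' a x hx := q2_ann_right h hs a x hx
  star_mem' x hx := q2_ann_star h hs x hx
  closed' := by
    apply q2_closed (fun k (x : q2C h hs) => x.1 k * h) _ ‖h‖
    · intro k x
      rw [mul_comm ‖h‖]
      refine (norm_mul_le _ _).trans ?_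
      gcongr
      exact q2_bdd x.1 k
    · intro k x y
      exact sub_mul _ _ _

private theorem q2I_mem (h : U) (hs : IsSelfAdjoint h) (x : q2C h hs) :
    x ∈ q2I h hs ↔ Tendsto (fun k => ‖x.1 k * h‖) atTop (𝓝 0) := Iff.rfl

/-- Evaluation at `k`. -/
def q2ev (h : U) (hs : IsSelfAdjoint h) (k : ℕ) : q2C h hs →+* U where
  toFun x := x.1 k
  map_one' := rfl
  map_mul' _ _ := rfl
  map_zero' := rfl
  map_add' _ _ := rfl

private theorem q2ev_apply (h : U) (hs : IsSelfAdjoint h) (k : ℕ) (x : q2C h hs) :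
    q2ev h hs k x = x.1 k := rfl

open P133 in
private theorem q2_transfer (h : U) (hs : IsSelfAdjoint h) (x₁ x₂ : q2C h hs) (c : ℂ)
    {δ : ℝ} (hδ : ‖star (Quo.qm (q2I h hs) x₁) * Quo.qm (q2I h hs) x₂ - c • 1‖ < δ) :
    ∀ᶠ k in atTop, ‖star (x₁.1 k) * h * x₂.1 k - c • h‖ < δ * (‖h‖ + 1) := by
  have hδ0 : 0 < δ := (norm_nonneg _).trans_lt hδ
  obtain ⟨w, hw, hwn⟩ := Quo.exists_qm_norm_lt
    (star (Quo.qm (q2I h hs) x₁) * Quo.qm (q2I h hs) x₂ - c • 1) (sub_pos.2 hδ)
  have hwn' : ‖w‖ < δ := by linarith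
  set z : q2C h hs := star x₁ * x₂ - c • 1 - w with hz
  have hzI : z ∈ q2I h hs := by
    rw [← Quo.qm_eq_zero, hz, map_sub, hw, map_sub, map_mul, map_star, map_smul, map_one, sub_self]
  have h1 : Tendsto (fun k => ‖z.1 k * h‖) atTop (𝓝 0) := hzI
  have h2 : Tendsto (fun k => ‖x₂.1 k * h - h * x₂.1 k‖) atTop (𝓝 0) := x₂.2
  have h3 : Tendsto (fun k => ‖z.1 k * h‖ + ‖x₁.1‖ * ‖x₂.1 k * h - h * x₂.1 k‖) atTop (𝓝 0) := by
    simpa using h1.add (h2.const_mul ‖x₁.1‖)
  filter_upwards [h3.eventually (gt_mem_nhds hδ0)] with k hk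
  have hzk : z.1 k = star (x₁.1 k) * x₂.1 k - c • 1 - w.1 k := rfl
  have e : star (x₁.1 k) * h * x₂.1 k - c • h =
      z.1 k * h + w.1 k * h - star (x₁.1 k) * (x₂.1 k * h - h * x₂.1 k) := by
    rw [hzk, sub_mul, sub_mul, smul_mul_assoc, one_mul]
    noncomm_ring
  have hwk : ‖w.1 k‖ ≤ δ := (q2_bdd w.1 k).trans hwn'.le
  rw [e]
  calc ‖z.1 k * h + w.1 k * h - star (x₁.1 k) * (x₂.1 k * h - h * x₂.1 k)‖
      ≤ ‖z.1 k * h + w.1 k * h‖ + ‖star (x₁.1 k) * (x₂.1 k * h - h * x₂.1 k)‖ := norm_sub_le _ _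
    _ ≤ (‖z.1 k * h‖ + ‖w.1 k‖ * ‖h‖) + ‖star (x₁.1 k)‖ * ‖x₂.1 k * h - h * x₂.1 k‖ := by
        gcongr
        · exact (norm_add_le _ _).trans (by gcongr; exact norm_mul_le _ _)
        · exact norm_mul_le _ _
    _ ≤ (‖z.1 k * h‖ + δ * ‖h‖) + ‖x₁.1‖ * ‖x₂.1 k * h - h * x₂.1 k‖ := by
        rw [norm_star]
        gcongr
        exact q2_bdd x₁.1 k
    _ < δ * (‖h‖ + 1) := by linarith

end Q2a

section Q2b

attribute [local instance] q2_lp q2M

variable {A : Type u} [NonUnitalCStarAlgebra A] [PartialOrder A] [StarOrderedRing A]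

private theorem q2_v (h : A) {ε : ℝ} (hε : 0 < ε) :
    ∃ v : A, IsSelfAdjoint v ∧ ‖v‖ ≤ 1 ∧ ‖v * h * v - h‖ < ε := by
  have hl := CStarAlgebra.increasingApproximateUnit A
  have h1 := hl.tendsto_mul_left h
  have h2 := hl.tendsto_mul_right h
  rw [Metric.tendsto_nhds] at h1 h2
  have := hl.neBot
  obtain ⟨v, ⟨hv1, hv2⟩, hv3, hv4⟩ := ((h1 (ε / 2) (by positivity)).and
    (h2 (ε / 2) (by positivity))).and
    (hl.eventually_isSelfAdjoint.and hl.eventually_norm) |>.exists
  refine ⟨v, hv3, hv4, ?_⟩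
  rw [dist_eq_norm] at hv1 hv2
  have e : v * h * v - h = (v * h - h) * v + (h * v - h) := by noncomm_ring
  rw [e]
  calc ‖(v * h - h) * v + (h * v - h)‖ ≤ ‖v * h - h‖ * ‖v‖ + ‖h * v - h‖ :=
        (norm_add_le _ _).trans (by gcongr; exact norm_mul_le _ _)
    _ ≤ ‖v * h - h‖ * 1 + ‖h * v - h‖ := by gcongr
    _ < ε := by linarith

theorem exists_alg {N M : ℕ} (h : A) (h0 : 0 ≤ h) (s : ℕ → ℕ → Fin N → Fin M → A)
    (hb : ∀ m k i j, ‖s m k i j‖ ≤ 2)
    (h1 : ∀ m m', m ≠ m' → ∀ i j i' j',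
        Tendsto (fun k => ‖s m k i j * s m' k i' j' - s m' k i' j' * s m k i j‖) atTop (𝓝 0))
    (h2 : ∀ m m', m ≠ m' → ∀ i j i' j',
        Tendsto (fun k => ‖s m k i j * star (s m' k i' j') - star (s m' k i' j') * s m k i j‖)
          atTop (𝓝 0))
    (h3 : ∀ m i j, Tendsto (fun k => ‖s m k i j * h - h * s m k i j‖) atTop (𝓝 0))
    (h4 : ∀ m j j', Tendsto (fun k => ‖(∑ i, star (s m k i j) * s m k i j') * h -
        (if j = j' then h else 0)‖) atTop (𝓝 0)) :
    ∃ (Q : Type u) (_ : CStarAlgebra Q) (S : ℕ → Fin N → Fin M → Q),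
      (∀ m j j', ∑ i, star (S m i j) * S m i j' = if j = j' then 1 else 0) ∧
      (∀ m m', m ≠ m' → ∀ i j i' j', Commute (S m i j) (S m' i' j') ∧
        Commute (S m i j) (star (S m' i' j'))) ∧
      ∀ ε : ℝ, 0 < ε → ∃ δ : ℝ, 0 < δ ∧ ∀ t₁ t₂ : Q, ‖star t₁ * t₁ - 1‖ < δ →
        ‖star t₂ * t₂ - 1‖ < δ → ‖star t₁ * t₂‖ < δ →
        ∃ x y : A, ‖star x * h * x - h‖ < ε ∧ ‖star y * h * y - h‖ < ε ∧
          ‖star x * h * y‖ < ε := by
  have hs : IsSelfAdjoint (h : Unitization ℂ A) := by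
    have := (IsSelfAdjoint.of_nonneg h0).star_eq
    rw [isSelfAdjoint_iff, ← Unitization.inr_star, this]
  -- the sequences
  let σ : ℕ → Fin N → Fin M → q2C (h : Unitization ℂ A) hs := fun m i j =>
    ⟨⟨fun k => ((s m k i j : A) : Unitization ℂ A), memℓp_infty
      ⟨2, by rintro _ ⟨k, rfl⟩; simpa [Unitization.norm_inr] using hb m k i j⟩⟩, by
      rw [q2C_mem]
      refine (h3 m i j).congr fun k => ?_
      rw [← Unitization.norm_inr (𝕜 := ℂ)]
      simp only [Unitization.inr_sub, Unitization.inr_mul]⟩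
  have hσ : ∀ m i j k, q2ev (h : Unitization ℂ A) hs k (σ m i j) =
      ((s m k i j : A) : Unitization ℂ A) := fun _ _ _ _ => rfl
  have hσ' : ∀ m i j k, q2ev (h : Unitization ℂ A) hs k (star (σ m i j)) =
      ((star (s m k i j) : A) : Unitization ℂ A) := by
    intro m i j k
    rw [Unitization.inr_star]
    rfl
  refine ⟨P133.Quo (q2I (h : Unitization ℂ A) hs), inferInstance,
    fun m i j => P133.Quo.qm _ (σ m i j), ?_, ?_, ?_⟩
  · intro m j j'
    have e1 : (∑ i, star (P133.Quo.qm (q2I (h : Unitization ℂ A) hs) (σ m i j)) *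
        P133.Quo.qm (q2I (h : Unitization ℂ A) hs) (σ m i j')) =
        P133.Quo.qm (q2I (h : Unitization ℂ A) hs) (∑ i, star (σ m i j) * σ m i j') := by
      rw [map_sum]
      exact Finset.sum_congr rfl fun i _ => by rw [map_mul, map_star]
    have e2 : (if j = j' then (1 : P133.Quo (q2I (h : Unitization ℂ A) hs)) else 0) =
        P133.Quo.qm (q2I (h : Unitization ℂ A) hs) (if j = j' then 1 else 0) := by
      split_ifs
      · rw [map_one]
      · rw [map_zero]
    rw [e1, e2, P133.Quo.qm_eq_iff, q2I_mem]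
    refine (h4 m j j').congr fun k => ?_
    rw [← q2ev_apply, map_sub, map_sum]
    simp only [map_mul, hσ, hσ']
    rw [← Unitization.norm_inr (𝕜 := ℂ)]
    congr 1
    have e3 : (∑ i, ((star (s m k i j) : A) : Unitization ℂ A) * ((s m k i j' : A) :
        Unitization ℂ A)) = ((∑ i, star (s m k i j) * s m k i j' : A) : Unitization ℂ A) := by
      have := map_sum (Unitization.inrNonUnitalAlgHom ℂ A)
        (fun i => star (s m k i j) * s m k i j') Finset.univ
      refine Eq.trans ?_ this.symm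
      exact Finset.sum_congr rfl fun i _ => (Unitization.inr_mul ℂ _ _).symm
    rw [e3, sub_mul]
    split_ifs
    · rw [map_one, one_mul, Unitization.inr_sub, Unitization.inr_mul]
    · rw [map_zero, zero_mul, Unitization.inr_sub, Unitization.inr_mul, Unitization.inr_zero]
  · intro m m' hmm i j i' j'
    have key : ∀ x y : q2C (h : Unitization ℂ A) hs,
        Tendsto (fun k => ‖(x * y - y * x).1 k‖) atTop (𝓝 0) →
        Commute (P133.Quo.qm (q2I (h : Unitization ℂ A) hs) x)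
          (P133.Quo.qm (q2I (h : Unitization ℂ A) hs) y) := by
      intro x y hxy
      show _ * _ = _ * _
      rw [← map_mul, ← map_mul, P133.Quo.qm_eq_iff, q2I_mem]
      exact squeeze_zero (fun _ => norm_nonneg _) (fun k => norm_mul_le _ _)
        (by simpa using hxy.mul_const ‖(h : Unitization ℂ A)‖)
    refine ⟨key _ _ ?_, ?_⟩
    · refine (h1 m m' hmm i j i' j').congr fun k => ?_
      rw [← q2ev_apply, map_sub, map_mul, map_mul, hσ, hσ, ← Unitization.norm_inr (𝕜 := ℂ)]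
      simp only [Unitization.inr_sub, Unitization.inr_mul]
    · rw [← map_star]
      refine key _ _ ?_
      refine (h2 m m' hmm i j i' j').congr fun k => ?_
      rw [← q2ev_apply, map_sub, map_mul, map_mul, hσ, hσ', ← Unitization.norm_inr (𝕜 := ℂ)]
      simp only [Unitization.inr_sub, Unitization.inr_mul]
  · intro ε hε
    obtain ⟨v, hv1, hv2, hv3⟩ := q2_v h (half_pos hε)
    have hpos : 0 < ‖(h : Unitization ℂ A)‖ + 1 := by positivity
    refine ⟨ε / 2 / (‖(h : Unitization ℂ A)‖ + 1), by positivity, fun t₁ t₂ ht1 ht2 ht3 => ?_⟩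
    obtain ⟨x₁, rfl⟩ := P133.Quo.qm_surjective t₁
    obtain ⟨x₂, rfl⟩ := P133.Quo.qm_surjective t₂
    have hδ : ε / 2 / (‖(h : Unitization ℂ A)‖ + 1) * (‖(h : Unitization ℂ A)‖ + 1) = ε / 2 :=
      div_mul_cancel₀ _ hpos.ne'
    have k1 := q2_transfer (h : Unitization ℂ A) hs x₁ x₁ 1 (by rw [one_smul]; exact ht1)
    have k2 := q2_transfer (h : Unitization ℂ A) hs x₂ x₂ 1 (by rw [one_smul]; exact ht2)
    have k3 := q2_transfer (h : Unitization ℂ A) hs x₁ x₂ 0
      (by rw [zero_smul, sub_zero]; exact ht3)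
    rw [hδ] at k1 k2 k3
    simp only [one_smul, zero_smul, sub_zero] at k1 k2 k3
    obtain ⟨k, ⟨a1, a2⟩, a3⟩ := ((k1.and k2).and k3).exists
    have hvs : star (v : Unitization ℂ A) = v := by rw [← Unitization.inr_star, hv1.star_eq]
    have hvn : ‖(v : Unitization ℂ A)‖ ≤ 1 := by rwa [Unitization.norm_inr]
    have ex : ∀ u : Unitization ℂ A, ∃ x : A, (x : Unitization ℂ A) = u * v := fun u =>
      ⟨(u * v).snd, by ext <;> simp⟩
    obtain ⟨x, hx⟩ := ex (x₁.1 k)
    obtain ⟨y, hy⟩ := ex (x₂.1 k)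
    have sand : ∀ w : Unitization ℂ A, ‖(v : Unitization ℂ A) * w * v‖ ≤ ‖w‖ := by
      intro w
      calc ‖(v : Unitization ℂ A) * w * v‖ ≤ ‖(v : Unitization ℂ A)‖ * ‖w‖ *
            ‖(v : Unitization ℂ A)‖ := (norm_mul_le _ _).trans (by gcongr; exact norm_mul_le _ _)
        _ ≤ 1 * ‖w‖ * 1 := by gcongr
        _ = ‖w‖ := by ring
    have hdiag : ∀ (u : Unitization ℂ A) (z : A), (z : Unitization ℂ A) = u * v →
        ‖star u * h * u - h‖ < ε / 2 → ‖star z * h * z - h‖ < ε := by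
      intro u z hz hu
      rw [← Unitization.norm_inr (𝕜 := ℂ)]
      have e : ((star z * h * z - h : A) : Unitization ℂ A) =
          v * (star u * h * u - h) * v + ((v * h * v - h : A) : Unitization ℂ A) := by
        simp only [Unitization.inr_sub, Unitization.inr_mul, Unitization.inr_star, hz, star_mul,
          hvs]
        noncomm_ring
      rw [e]
      refine (norm_add_le _ _).trans_lt ?_
      rw [Unitization.norm_inr]
      have := sand (star u * h * u - h)
      linarith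
    refine ⟨x, y, hdiag _ x hx a1, hdiag _ y hy a2, ?_⟩
    rw [← Unitization.norm_inr (𝕜 := ℂ)]
    have e : ((star x * h * y : A) : Unitization ℂ A) =
        v * (star (x₁.1 k) * h * x₂.1 k) * v := by
      simp only [Unitization.inr_mul, Unitization.inr_star, hx, hy, star_mul, hvs]
      noncomm_ring
    rw [e]
    have := sand (star (x₁.1 k) * h * x₂.1 k)
    linarith

end Q2b

end Vale.Agent.P133F
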