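import Vale.Agent.P133F.Props
import Mathlib.Analysis.CStarAlgebra.ApproximateUnit

/-! Block V: asymptotically multiplicative cut-down of a sum of completely positive
contractions which is close to the identity. -/

namespace Vale.Agent.P133F

open scoped CStarAlgebra ComplexOrder
open Vale.Agent.P133.Statement
open Filter Topology

universe u

variable {A : Type u} [NonUnitalCStarAlgebra A] [PartialOrder A] [StarOrderedRing A]

theorem V_form_nonneg (M : CStarMatrix (Fin 2) (Fin 2) A) (hM : 0 ≤ M) (y : Fin 2 → A) :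
    0 ≤ ∑ i, ∑ j, star (y i) * M i j * y j := by
  rw [StarOrderedRing.nonneg_iff] at hM
  induction hM using AddSubmonoid.closure_induction with
  | mem x hx =>
    obtain ⟨N, rfl⟩ := hx
    have h3 : ∀ i j, (star N * N) i j = ∑ k, star (N k i) * N k j := by
      intro i j
      rw [CStarMatrix.mul_apply]
      simp only [CStarMatrix.star_apply]
    have h5 : ∑ i, ∑ j, star (y i) * (star N * N) i j * y j =
        ∑ k, star (∑ i, N k i * y i) * (∑ j, N k j * y j) := by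
      simp only [h3]
      simp only [Fin.sum_univ_two, star_add, star_mul, add_mul, mul_add, mul_assoc]
      abel
    rw [h5]
    exact Finset.sum_nonneg fun k _ => star_mul_self_nonneg _
  | zero => simp
  | add x z _ _ hx hz =>
    have : ∑ i, ∑ j, star (y i) * (x + z) i j * y j =
        (∑ i, ∑ j, star (y i) * x i j * y j) + ∑ i, ∑ j, star (y i) * z i j * y j := by
      simp only [CStarMatrix.add_apply, mul_add, add_mul, Finset.sum_add_distrib]
    rw [this]
    exact add_nonneg hx hz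

/-- The quadratic form of a completely positive map. -/
noncomputable def V_q (Φ : A →CP A) (c y : Fin 2 → A) : A :=
  ∑ i, ∑ j, star (y i) * Φ (star (c i) * c j) * y j

theorem V_q_nonneg (Φ : A →CP A) (c y : Fin 2 → A) : 0 ≤ V_q Φ c y := by
  set R : CStarMatrix (Fin 2) (Fin 2) A :=
    CStarMatrix.ofMatrix (fun i j => if i = 0 then c j else 0) with hR
  have h1 : (0 : CStarMatrix (Fin 2) (Fin 2) A) ≤ star R * R := star_mul_self_nonneg R
  have h2 := Φ.map_cstarMatrix_nonneg (star R * R) h1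
  have h3 := V_form_nonneg _ h2 y
  have h4 : ∀ i j, ((star R * R).map Φ) i j = Φ (star (c i) * c j) := by
    intro i j
    rw [CStarMatrix.map_apply, CStarMatrix.mul_apply]
    simp only [CStarMatrix.star_apply, Fin.sum_univ_two]
    have e0 : ∀ j, R 0 j = c j := fun j => by
      simp only [hR]; rfl
    have e1 : ∀ j, R 1 j = 0 := fun j => by
      simp only [hR]; rfl
    rw [e0, e0, e1, e1]
    simp
  simp only [h4] at h3
  exact h3

/-- `‖Φ(c₀* c₀) y₀ + Φ(c₀* c₁) y₁‖² ≤ ‖q(y)‖` if `‖Φ(c₀* c₀)‖ ≤ 1`. -/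
theorem V_cs (Φ : A →CP A) (c y : Fin 2 → A) (h : ‖Φ (star (c 0) * c 0)‖ ≤ 1) :
    ‖Φ (star (c 0) * c 0) * y 0 + Φ (star (c 0) * c 1) * y 1‖ ^ 2 ≤ ‖V_q Φ c y‖ := by
  set x := Φ (star (c 0) * c 0) * y 0 + Φ (star (c 0) * c 1) * y 1 with hx
  have hp0 : 0 ≤ Φ (star (c 0) * c 0) := map_nonneg Φ (star_mul_self_nonneg _)
  have hsa : star (Φ (star (c 0) * c 0)) = Φ (star (c 0) * c 0) :=
    (IsSelfAdjoint.of_nonneg hp0).star_eq
  have hs1 : star (Φ (star (c 0) * c 1)) = Φ (star (c 1) * c 0) := by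
    rw [← map_star, star_mul, star_star]
  have h1 := V_q_nonneg Φ c ![y 0 - x, y 1]
  have h2 : V_q Φ c ![y 0 - x, y 1] = V_q Φ c y - (star x * x + star x * x) +
      star x * Φ (star (c 0) * c 0) * x := by
    have e1 : star x = star (y 0) * Φ (star (c 0) * c 0) + star (y 1) * Φ (star (c 1) * c 0) := by
      rw [hx, star_add, star_mul, star_mul, hsa, hs1]
    have e2 : star x * x = star x * Φ (star (c 0) * c 0) * y 0 +
        star x * Φ (star (c 0) * c 1) * y 1 := by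
      conv_lhs => rw [hx]
      rw [← hx, mul_add, mul_assoc, mul_assoc]
    have e3 : star x * x = star (y 0) * Φ (star (c 0) * c 0) * x +
        star (y 1) * Φ (star (c 1) * c 0) * x := by
      rw [← add_mul, ← e1]
    unfold V_q
    simp only [Fin.sum_univ_two, Matrix.cons_val_zero, Matrix.cons_val_one, star_sub]
    calc _ = star (y 0) * Φ (star (c 0) * c 0) * y 0 + star (y 0) * Φ (star (c 0) * c 1) * y 1 +
          (star (y 1) * Φ (star (c 1) * c 0) * y 0 + star (y 1) * Φ (star (c 1) * c 1) * y 1) -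
          ((star (y 0) * Φ (star (c 0) * c 0) * x + star (y 1) * Φ (star (c 1) * c 0) * x) +
          (star x * Φ (star (c 0) * c 0) * y 0 + star x * Φ (star (c 0) * c 1) * y 1)) +
          star x * Φ (star (c 0) * c 0) * x := by
            simp only [sub_mul, mul_sub]
            abel
      _ = _ := by rw [← e2, ← e3]
  rw [h2] at h1
  have h3 : star x * Φ (star (c 0) * c 0) * x ≤ star x * x := by
    have h4 : star x * Φ (star (c 0) * c 0) * x ≤
        ‖Φ (star (c 0) * c 0)‖ • (star x * x) :=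
      CStarAlgebra.star_left_conjugate_le_norm_smul (IsSelfAdjoint.of_nonneg hp0)
    refine h4.trans ?_
    have h5 : 0 ≤ (1 - ‖Φ (star (c 0) * c 0)‖) • (star x * x) :=
      smul_nonneg (by linarith) (star_mul_self_nonneg x)
    rw [sub_smul, one_smul, sub_nonneg] at h5
    exact h5
  have h6 : star x * x ≤ V_q Φ c y := by
    have h7 : V_q Φ c y - star x * x =
        (V_q Φ c y - (star x * x + star x * x) + star x * Φ (star (c 0) * c 0) * x) +
        (star x * x - star x * Φ (star (c 0) * c 0) * x) := by abel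
    rw [← sub_nonneg, h7]
    exact add_nonneg h1 (sub_nonneg.mpr h3)
  calc ‖x‖ ^ 2 = ‖star x * x‖ := by rw [CStarRing.norm_star_mul_self, sq]
    _ ≤ ‖V_q Φ c y‖ := CStarAlgebra.norm_le_norm_of_nonneg_of_le (star_mul_self_nonneg x) h6

theorem V_sum_q {m : ℕ} (V : Fin m → (A →CP A)) (c y : Fin 2 → A) :
    ∑ l, V_q (V l) c y = ∑ i, ∑ j, star (y i) * (∑ l, V l (star (c i) * c j)) * y j := by
  unfold V_q
  rw [Finset.sum_comm]
  refine Finset.sum_congr rfl fun i _ => ?_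
  rw [Finset.sum_comm]
  refine Finset.sum_congr rfl fun j _ => ?_
  rw [Finset.mul_sum, Finset.sum_mul]

theorem V_sum_q_norm {m : ℕ} (V : Fin m → (A →CP A)) (c y : Fin 2 → A) (δ : ℝ)
    (h : ∀ i j, ‖∑ l, V l (star (c i) * c j) - star (c i) * c j‖ ≤ δ) :
    ‖∑ l, V_q (V l) c y‖ ≤ ‖c 0 * y 0 + c 1 * y 1‖ ^ 2 + δ * (‖y 0‖ + ‖y 1‖) ^ 2 := by
  rw [V_sum_q]
  have h0 : ∑ i, ∑ j, star (y i) * (∑ l, V l (star (c i) * c j)) * y j =
      star (c 0 * y 0 + c 1 * y 1) * (c 0 * y 0 + c 1 * y 1) +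
      ∑ i, ∑ j, star (y i) * (∑ l, V l (star (c i) * c j) - star (c i) * c j) * y j := by
    have h1 : star (c 0 * y 0 + c 1 * y 1) * (c 0 * y 0 + c 1 * y 1) =
        ∑ i, ∑ j, star (y i) * (star (c i) * c j) * y j := by
      simp only [Fin.sum_univ_two, star_add, star_mul, add_mul, mul_add, mul_assoc]
      abel
    rw [h1, ← Finset.sum_add_distrib]
    refine Finset.sum_congr rfl fun i _ => ?_
    rw [← Finset.sum_add_distrib]
    refine Finset.sum_congr rfl fun j _ => ?_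
    rw [← add_mul, ← mul_add]
    congr 2
    abel
  rw [h0]
  refine (norm_add_le _ _).trans (add_le_add ?_ ?_)
  · rw [CStarRing.norm_star_mul_self, sq]
  · have h2 : ∀ i j, ‖star (y i) * (∑ l, V l (star (c i) * c j) - star (c i) * c j) * y j‖ ≤
        ‖y i‖ * δ * ‖y j‖ := by
      intro i j
      refine (norm_mul_le _ _).trans ?_
      refine mul_le_mul_of_nonneg_right ?_ (norm_nonneg _)
      refine (norm_mul_le _ _).trans ?_
      rw [norm_star]
      exact mul_le_mul_of_nonneg_left (h i j) (norm_nonneg _)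
    refine (norm_sum_le _ _).trans ?_
    refine (Finset.sum_le_sum fun i _ => (norm_sum_le _ _).trans
      (Finset.sum_le_sum fun j _ => h2 i j)).trans ?_
    simp only [Fin.sum_univ_two]
    nlinarith [norm_nonneg (y 0), norm_nonneg (y 1)]

theorem V_main {m : ℕ} (V : Fin m → (A →CP A)) (hV : ∀ l x, ‖V l x‖ ≤ ‖x‖) (u a : A)
    (hu : 0 ≤ u) (hu1 : ‖u‖ ≤ 1) (δ : ℝ)
    (h00 : ‖∑ l, V l (u * u) - u * u‖ ≤ δ) (h01 : ‖∑ l, V l (u * a) - u * a‖ ≤ δ)
    (h10 : ‖∑ l, V l (star a * u) - star a * u‖ ≤ δ)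
    (h11 : ‖∑ l, V l (star a * a) - star a * a‖ ≤ δ) (l : Fin m) :
    ‖V l (u * u) * a - V l (u * a)‖ ^ 2 ≤ ‖u * a - a‖ ^ 2 + δ * (‖a‖ + 1) ^ 2 := by
  set w := V l (u * u) * a - V l (u * a) with hw
  have hus : star u = u := (IsSelfAdjoint.of_nonneg hu).star_eq
  have hδ : 0 ≤ δ := (norm_nonneg _).trans h00
  set c : Fin 2 → A := ![u, a] with hc
  set y : Fin 2 → A := ![a * star w, - star w] with hy
  have c0 : c 0 = u := rfl
  have c1 : c 1 = a := rfl
  have y0 : y 0 = a * star w := rfl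
  have y1 : y 1 = - star w := rfl
  have hcc : ∀ i j, ‖∑ l, V l (star (c i) * c j) - star (c i) * c j‖ ≤ δ := by
    intro i j
    fin_cases i <;> fin_cases j
    · simpa [hc, hus] using h00
    · simpa [hc, hus] using h01
    · simpa [hc, hus] using h10
    · simpa [hc, hus] using h11
  have h1 := V_sum_q_norm V c y δ hcc
  have h2 : ‖V l (star (c 0) * c 0)‖ ≤ 1 := by
    rw [c0, hus]
    refine (hV l _).trans ((norm_mul_le _ _).trans ?_)
    nlinarith [norm_nonneg u]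
  have h3 := V_cs (V l) c y h2
  have h4 : ‖V_q (V l) c y‖ ≤ ‖∑ l, V_q (V l) c y‖ :=
    CStarAlgebra.norm_le_norm_of_nonneg_of_le (V_q_nonneg _ _ _)
      (Finset.single_le_sum (f := fun l => V_q (V l) c y) (fun i _ => V_q_nonneg _ _ _)
        (Finset.mem_univ l))
  have h5 : V l (star (c 0) * c 0) * y 0 + V l (star (c 0) * c 1) * y 1 = w * star w := by
    rw [c0, c1, y0, y1, hus, hw]
    simp only [sub_mul, mul_neg, mul_assoc]
    abel
  rw [h5, CStarRing.norm_self_mul_star] at h3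
  have h6 : c 0 * y 0 + c 1 * y 1 = (u * a - a) * star w := by
    rw [c0, c1, y0, y1, sub_mul, mul_neg, mul_assoc]
    abel
  rw [h6, y0, y1, norm_neg, norm_star] at h1
  have h7 : ‖(u * a - a) * star w‖ ≤ ‖u * a - a‖ * ‖w‖ := by
    refine (norm_mul_le _ _).trans ?_
    rw [norm_star]
  have h8 : ‖a * star w‖ ≤ ‖a‖ * ‖w‖ := by
    refine (norm_mul_le _ _).trans ?_
    rw [norm_star]
  have h9 : (‖w‖ * ‖w‖) ^ 2 ≤ (‖u * a - a‖ ^ 2 + δ * (‖a‖ + 1) ^ 2) * ‖w‖ ^ 2 := by
    refine (h3.trans (h4.trans h1)).trans ?_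
    have e1 : ‖(u * a - a) * star w‖ ^ 2 ≤ (‖u * a - a‖ * ‖w‖) ^ 2 :=
      pow_le_pow_left₀ (norm_nonneg _) h7 2
    have e2 : (‖a * star w‖ + ‖w‖) ^ 2 ≤ ((‖a‖ + 1) * ‖w‖) ^ 2 := by
      refine pow_le_pow_left₀ (by positivity) ?_ 2
      linarith
    have e3 := mul_le_mul_of_nonneg_left e2 hδ
    calc _ ≤ (‖u * a - a‖ * ‖w‖) ^ 2 + δ * ((‖a‖ + 1) * ‖w‖) ^ 2 := add_le_add e1 e3
      _ = _ := by ring
  by_cases hw0 : ‖w‖ = 0
  · rw [hw0, zero_pow two_ne_zero]
    positivity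
  · have hwp : 0 < ‖w‖ ^ 2 := by positivity
    have h10 : ‖w‖ ^ 2 * ‖w‖ ^ 2 ≤ (‖u * a - a‖ ^ 2 + δ * (‖a‖ + 1) ^ 2) * ‖w‖ ^ 2 := by
      calc _ = (‖w‖ * ‖w‖) ^ 2 := by ring
        _ ≤ _ := h9
    exact le_of_mul_le_mul_right h10 hwp

theorem V_near (T : Finset A) (η : ℝ) (hη : 0 < η) :
    ∃ u : A, 0 ≤ u ∧ ‖u‖ ≤ 1 ∧ ∀ a ∈ T, ‖u * a - a‖ < η := by
  have h := CStarAlgebra.increasingApproximateUnit A
  have hne := h.neBot
  have h1 : ∀ᶠ x in CStarAlgebra.approximateUnit A, ∀ a ∈ T, ‖x * a - a‖ < η := by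
    rw [Filter.eventually_all_finset]
    intro a _
    have h2 := h.tendsto_mul_right a
    have h3 := (tendsto_iff_norm_sub_tendsto_zero.mp h2).eventually (gt_mem_nhds hη)
    exact h3
  obtain ⟨u, hu⟩ := (h1.and (h.eventually_nonneg.and h.eventually_norm)).exists
  exact ⟨u, hu.2.1, hu.2.2, hu.1⟩

theorem exists_cut (d : ℕ) (T : Finset A) (ε : ℝ) (hε : 0 < ε) :
    ∃ (u : A) (T' : Finset A) (δ : ℝ), 0 ≤ u ∧ ‖u‖ ≤ 1 ∧ 0 < δ ∧
      (∀ a ∈ T, ‖u * a - a‖ < ε) ∧
      ∀ V : Fin (d + 1) → (A →CP A), (∀ l x, ‖V l x‖ ≤ ‖x‖) →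
        (∀ x ∈ T', ‖∑ l, V l x - x‖ < δ) →
        (∀ l, ∀ a ∈ T, ‖V l (u * u) * a - V l a‖ < ε) ∧
        (∀ l, ∀ a ∈ T, ‖a * V l (u * u) - V l a‖ < ε) ∧
        ‖∑ l, V l (u * u) - u * u‖ < ε := by
  classical
  set T₂ : Finset A := T ∪ T.image star with hT₂
  obtain ⟨u, hu0, hu1, hu⟩ := V_near T₂ (ε / 4) (by positivity)
  obtain ⟨C, hC⟩ : ∃ C : ℝ, ∀ a ∈ T₂, ‖a‖ ≤ C := by
    refine ⟨∑ a ∈ T₂, ‖a‖, fun a ha => ?_⟩
    exact Finset.single_le_sum (f := fun a : A => ‖a‖) (fun i _ => norm_nonneg i) ha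
  set C' := max C 0 with hC'
  have hC'0 : 0 ≤ C' := le_max_right _ _
  set δ := min ε (ε ^ 2 / (16 * (C' + 1) ^ 2)) with hδ
  have hδ0 : 0 < δ := lt_min hε (by positivity)
  refine ⟨u, {u * u} ∪ T₂.image (fun a => u * a) ∪ T₂.image (fun a => star a * u) ∪
    T₂.image (fun a => star a * a), δ, hu0, hu1, hδ0, ?_, ?_⟩
  · intro a ha
    have := hu a (by rw [hT₂]; exact Finset.mem_union_left _ ha)
    linarith
  intro V hV hT'
  have key : ∀ l, ∀ a ∈ T₂, ‖V l (u * u) * a - V l a‖ < ε := by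
    intro l a ha
    have m00 := (hT' (u * u) (by simp)).le
    have m01 := (hT' (u * a) (by
      simp only [Finset.mem_union, Finset.mem_image, Finset.mem_singleton]
      exact Or.inl (Or.inl (Or.inr ⟨a, ha, rfl⟩)))).le
    have m10 := (hT' (star a * u) (by
      simp only [Finset.mem_union, Finset.mem_image, Finset.mem_singleton]
      exact Or.inl (Or.inr ⟨a, ha, rfl⟩))).le
    have m11 := (hT' (star a * a) (by
      simp only [Finset.mem_union, Finset.mem_image, Finset.mem_singleton]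
      exact Or.inr ⟨a, ha, rfl⟩)).le
    have h1 := V_main V hV u a hu0 hu1 δ m00 m01 m10 m11 l
    have h2 := hu a ha
    have h3 : ‖a‖ + 1 ≤ C' + 1 := by
      have := (hC a ha).trans (le_max_left C 0)
      linarith
    have h4 : δ * (‖a‖ + 1) ^ 2 ≤ ε ^ 2 / 16 := by
      have e1 : δ ≤ ε ^ 2 / (16 * (C' + 1) ^ 2) := min_le_right _ _
      have e2 : (‖a‖ + 1) ^ 2 ≤ (C' + 1) ^ 2 :=
        pow_le_pow_left₀ (by positivity) h3 2
      calc δ * (‖a‖ + 1) ^ 2 ≤ ε ^ 2 / (16 * (C' + 1) ^ 2) * (C' + 1) ^ 2 :=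
            mul_le_mul e1 e2 (by positivity) (by positivity)
        _ = ε ^ 2 / 16 := by field_simp
    have h5 : ‖u * a - a‖ ^ 2 ≤ ε ^ 2 / 16 := by
      calc ‖u * a - a‖ ^ 2 ≤ (ε / 4) ^ 2 := pow_le_pow_left₀ (norm_nonneg _) h2.le 2
        _ = ε ^ 2 / 16 := by ring
    have h6 : ‖V l (u * u) * a - V l (u * a)‖ ^ 2 ≤ (ε / 2) ^ 2 := by
      calc _ ≤ ε ^ 2 / 16 + ε ^ 2 / 16 := h1.trans (add_le_add h5 h4)
        _ ≤ (ε / 2) ^ 2 := by nlinarith [sq_nonneg ε]
    have h7 : ‖V l (u * u) * a - V l (u * a)‖ ≤ ε / 2 :=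
      (sq_le_sq₀ (norm_nonneg _) (by positivity)).mp h6
    have h8 : ‖V l (u * a) - V l a‖ < ε / 4 := by
      rw [← map_sub]
      exact (hV l _).trans_lt h2
    calc ‖V l (u * u) * a - V l a‖ =
          ‖(V l (u * u) * a - V l (u * a)) + (V l (u * a) - V l a)‖ := by
            congr 1; abel
      _ ≤ ‖V l (u * u) * a - V l (u * a)‖ + ‖V l (u * a) - V l a‖ := norm_add_le _ _
      _ < ε := by linarith
  refine ⟨fun l a ha => key l a (by rw [hT₂]; exact Finset.mem_union_left _ ha),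
    fun l a ha => ?_, (hT' (u * u) (by simp)).trans_le (min_le_left _ _)⟩
  have h1 := key l (star a) (by
    rw [hT₂]; exact Finset.mem_union_right _ (Finset.mem_image_of_mem _ ha))
  have h2 : star (V l (u * u)) = V l (u * u) :=
    (IsSelfAdjoint.of_nonneg (map_nonneg (V l)
      (by
        have := star_mul_self_nonneg u
        rwa [(IsSelfAdjoint.of_nonneg hu0).star_eq] at this))).star_eq
  have h3 : star (V l (u * u) * star a - V l (star a)) = a * V l (u * u) - V l a := by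
    rw [star_sub, star_mul, star_star, h2, ← map_star, star_star]
  rw [← h3, norm_star]
  exact h1

end Vale.Agent.P133F
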