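import Vale.Agent.P133F.BlockO
import Mathlib.Analysis.CStarAlgebra.ContinuousFunctionalCalculus.Commute

/-! Block X: over a completely positive map of order zero from a finite-dimensional C*-algebra,
elementwise weak pure infiniteness gives matrices approximately commuting with the image. -/

namespace Vale.Agent.P133F

open scoped CStarAlgebra ComplexOrder
open Vale.Agent.P133.Statement Filter Topology

universe u

variable {A : Type u} [NonUnitalCStarAlgebra A] [PartialOrder A] [StarOrderedRing A]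

/-! ### Functions on the real line -/

section

/-- tent functions -/
noncomputable def Xp (R l : ℕ) (s : ℝ) : ℝ := max 0 (1 - |R * s - (l + 2)|)

noncomputable def Xeta (R l : ℕ) (s : ℝ) : ℝ := √(Xp R l s) / max s (1 / R)

noncomputable def Xom (R l : ℕ) (s : ℝ) : ℝ :=
  √((1 / R) ^ 2 - (s - (l + 2) / R) ^ 2) * Xeta R l s

noncomputable def Xg (R : ℕ) (s : ℝ) : ℝ := ∑ l ∈ Finset.range R, Xp R l s ^ 2

theorem X_p_cont (R l : ℕ) : Continuous (Xp R l) := by
  unfold Xp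
  fun_prop

theorem X_p_nonneg (R l : ℕ) (s : ℝ) : 0 ≤ Xp R l s := le_max_left _ _

theorem X_p_le_one (R l : ℕ) (s : ℝ) : Xp R l s ≤ 1 := by
  unfold Xp
  exact max_le zero_le_one (by have := abs_nonneg ((R : ℝ) * s - (l + 2)); linarith)

theorem X_p_zero (R l : ℕ) {s : ℝ} (hs : R * s ≤ 1) : Xp R l s = 0 := by
  unfold Xp
  have h1 : (0 : ℝ) ≤ l := Nat.cast_nonneg l
  rw [max_eq_left]
  have := neg_abs_le ((R : ℝ) * s - (l + 2))
  linarith

theorem X_p_mul (R : ℕ) {l l' : ℕ} (hl : l ≠ l') (hp : l % 2 = l' % 2) (s : ℝ) :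
    Xp R l s * Xp R l' s = 0 := by
  by_contra hne
  obtain ⟨h1, h2⟩ := mul_ne_zero_iff.mp hne
  unfold Xp at h1 h2
  have h1' : 0 < 1 - |(R : ℝ) * s - (l + 2)| := by
    by_contra h; exact h1 (max_eq_left (not_lt.mp h))
  have h2' : 0 < 1 - |(R : ℝ) * s - (l' + 2)| := by
    by_contra h; exact h2 (max_eq_left (not_lt.mp h))
  have h3 : |(R : ℝ) * s - (l + 2)| < 1 := by linarith
  have h4 : |(R : ℝ) * s - (l' + 2)| < 1 := by linarith
  rw [abs_lt] at h3 h4
  have h5 : (l : ℝ) < l' + 2 := by linarith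
  have h6 : (l' : ℝ) < l + 2 := by linarith
  have h7 : l < l' + 2 := by exact_mod_cast h5
  have h8 : l' < l + 2 := by exact_mod_cast h6
  omega

theorem X_max_pos {R : ℕ} (hR : 0 < R) (s : ℝ) : 0 < max s (1 / (R : ℝ)) :=
  lt_max_of_lt_right (by positivity)

theorem X_eta_cont {R : ℕ} (hR : 0 < R) (l : ℕ) : Continuous (Xeta R l) := by
  unfold Xeta
  refine Continuous.div (Real.continuous_sqrt.comp (X_p_cont R l)) (by fun_prop) fun s => ?_
  exact (X_max_pos hR s).ne'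

theorem X_om_cont {R : ℕ} (hR : 0 < R) (l : ℕ) : Continuous (Xom R l) := by
  unfold Xom
  have := X_eta_cont hR l
  fun_prop

theorem X_eta_zero (R l : ℕ) : Xeta R l 0 = 0 := by
  unfold Xeta
  rw [X_p_zero R l (by simp), Real.sqrt_zero, zero_div]

theorem X_om_zero (R l : ℕ) : Xom R l 0 = 0 := by
  unfold Xom
  rw [X_eta_zero, mul_zero]

theorem X_mul_eta {R : ℕ} (hR : 0 < R) (l : ℕ) (s : ℝ) : s * Xeta R l s = √(Xp R l s) := by
  have hR' : (0 : ℝ) < R := by exact_mod_cast hR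
  unfold Xeta
  by_cases hs : R * s ≤ 1
  · rw [X_p_zero R l hs]; simp
  · have h1 : 1 / (R : ℝ) ≤ s := by
      rw [div_le_iff₀ hR']; linarith
    rw [max_eq_left h1]
    have : 0 < s := lt_of_lt_of_le (by positivity) h1
    field_simp

theorem X_eta_mul (R : ℕ) {l l' : ℕ} (hl : l ≠ l') (hp : l % 2 = l' % 2) (s : ℝ) :
    Xeta R l s * Xeta R l' s = 0 := by
  unfold Xeta
  rcases mul_eq_zero.mp (X_p_mul R hl hp s) with h | h <;> rw [h] <;> simp

theorem X_om_sq {R : ℕ} (hR : 0 < R) (l : ℕ) (s : ℝ) :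
    Xom R l s * Xom R l s = (1 / R) ^ 2 * (Xeta R l s * Xeta R l s) -
      ((s * Xeta R l s - (l + 2) / R * Xeta R l s) *
        (s * Xeta R l s - (l + 2) / R * Xeta R l s)) := by
  have hR' : (0 : ℝ) < R := by exact_mod_cast hR
  by_cases h0 : Xeta R l s = 0
  · unfold Xom; rw [h0]; simp
  · have h1 : Xp R l s ≠ 0 := by
      intro h; apply h0; unfold Xeta; rw [h]; simp
    have h2 : |(R : ℝ) * s - (l + 2)| ≤ 1 := by
      by_contra h
      apply h1
      unfold Xp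
      exact max_eq_left (by linarith)
    have h3 : (s - (l + 2) / R) ^ 2 ≤ (1 / (R : ℝ)) ^ 2 := by
      have e1 : s - (l + 2) / R = (R * s - (l + 2)) * (1 / (R : ℝ)) := by field_simp
      rw [e1, mul_pow]
      have : (R * s - (l + 2)) ^ 2 ≤ 1 := by
        rw [← sq_abs]; nlinarith [abs_nonneg ((R : ℝ) * s - (l + 2))]
      nlinarith [sq_nonneg (1 / (R : ℝ))]
    have h4 : √((1 / R) ^ 2 - (s - (l + 2) / R) ^ 2) * √((1 / R) ^ 2 - (s - (l + 2) / R) ^ 2) =
        (1 / (R : ℝ)) ^ 2 - (s - (l + 2) / R) ^ 2 := Real.mul_self_sqrt (by linarith)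
    unfold Xom
    rw [mul_mul_mul_comm, h4]
    ring

theorem X_g_cont (R : ℕ) : Continuous (Xg R) := by
  unfold Xg
  have := X_p_cont R
  fun_prop

theorem X_g_zero (R : ℕ) {s : ℝ} (hs : R * s ≤ 1) : Xg R s = 0 := by
  unfold Xg
  refine Finset.sum_eq_zero fun l _ => ?_
  rw [X_p_zero R l hs]; simp

theorem X_g_nonneg (R : ℕ) (s : ℝ) : 0 ≤ Xg R s :=
  Finset.sum_nonneg fun _ _ => sq_nonneg _

theorem X_sum_p_le (R : ℕ) (s : ℝ) (N : ℕ) :
    ∑ l ∈ Finset.range N, Xp R l s ≤ min 1 (max 0 (N + 2 - R * s)) := by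
  induction N with
  | zero => simp
  | succ N ih =>
    rw [Finset.sum_range_succ]
    unfold Xp at *
    push_cast
    set x : ℝ := R * s
    set S := ∑ x_1 ∈ Finset.range N, max 0 (1 - |x - (x_1 + 2)|)
    rcases le_total 0 (x - (N + 2)) with h | h
    · rw [abs_of_nonneg h]
      rcases le_total 0 (1 - (x - (N + 2))) with h' | h'
      · rw [max_eq_right h']
        rw [max_eq_left (by linarith)] at ih
        have : S ≤ 0 := ih.trans (min_le_right _ _)
        refine le_min (by linarith) (le_max_of_le_right (by linarith))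
      · rw [max_eq_left h']
        rw [max_eq_left (by linarith)] at ih
        have : S ≤ 0 := ih.trans (min_le_right _ _)
        refine le_min (by linarith) (le_max_of_le_left (by linarith))
    · rw [abs_of_nonpos h]
      rcases le_total 0 (1 - -(x - (N + 2))) with h' | h'
      · rw [max_eq_right h']
        rw [max_eq_right (by linarith)] at ih
        have : S ≤ N + 2 - x := ih.trans (min_le_right _ _)
        refine le_min (by linarith) (le_max_of_le_right (by linarith))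
      · rw [max_eq_left h']
        have : S ≤ 1 := ih.trans (min_le_left _ _)
        refine le_min (by linarith) (le_max_of_le_right (by linarith))

theorem X_g_le_one (R : ℕ) (s : ℝ) : Xg R s ≤ 1 := by
  refine le_trans ?_ ((X_sum_p_le R s R).trans (min_le_left _ _))
  unfold Xg
  refine Finset.sum_le_sum fun l _ => ?_
  have h1 := X_p_nonneg R l s
  have h2 := X_p_le_one R l s
  nlinarith

theorem X_g_half (R : ℕ) {s : ℝ} (h2 : 2 ≤ R * s) (h1 : s ≤ 1) : 1 / 2 ≤ Xg R s := by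
  set x : ℝ := R * s with hx
  have hxR : x ≤ R := by
    have : (0 : ℝ) ≤ R := Nat.cast_nonneg R
    nlinarith
  obtain ⟨j, hj⟩ : ∃ j : ℕ, ⌊x⌋₊ = j + 2 := by
    have : 2 ≤ ⌊x⌋₊ := Nat.le_floor (by exact_mod_cast h2)
    exact ⟨⌊x⌋₊ - 2, by omega⟩
  have hjx : ((j : ℝ) + 2) ≤ x := by
    have := Nat.floor_le (show 0 ≤ x by linarith)
    rw [hj] at this
    exact_mod_cast this
  have hjx' : x < (j : ℝ) + 3 := by
    have := Nat.lt_floor_add_one x
    rw [hj] at this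
    push_cast at this
    linarith
  have hjR : j + 2 ≤ R := by
    have : (j : ℝ) + 2 ≤ R := hjx.trans hxR
    exact_mod_cast this
  have e1 : Xp R j s = 1 - (x - (j + 2)) := by
    unfold Xp
    rw [← hx, abs_of_nonneg (by linarith), max_eq_right (by linarith)]
  have e2 : Xp R (j + 1) s = x - (j + 2) := by
    unfold Xp
    push_cast
    rw [← hx, abs_of_nonpos (by linarith), max_eq_right (by linarith)]
    ring
  have hsub : ({j, j + 1} : Finset ℕ) ⊆ Finset.range R := by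
    intro a ha
    simp only [Finset.mem_insert, Finset.mem_singleton] at ha
    rw [Finset.mem_range]
    omega
  have h3 := Finset.sum_le_sum_of_subset_of_nonneg (f := fun l => Xp R l s ^ 2) hsub
    (fun l _ _ => sq_nonneg _)
  rw [Finset.sum_pair (by omega)] at h3
  unfold Xg
  refine le_trans ?_ h3
  rw [e1, e2]
  nlinarith [sq_nonneg (x - (j + 2) - 1 / 2)]

end

/-! ### Part 2 -/

omit [PartialOrder A] [StarOrderedRing A] in
theorem X_orth {J : Type*} [DecidableEq J] (S : Finset J) (a q u v : J → A)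
    (h : ∀ s ∈ S, ∀ s' ∈ S, star (a s) * a s' = if s = s' then q s else 0) :
    star (∑ s ∈ S, a s * u s) * (∑ s ∈ S, a s * v s) = ∑ s ∈ S, star (u s) * q s * v s := by
  rw [star_sum, Finset.sum_mul]
  refine Finset.sum_congr rfl fun s hs => ?_
  rw [Finset.mul_sum, Finset.sum_eq_single s]
  · rw [star_mul, mul_assoc, ← mul_assoc (star (a s)), h s hs s hs, if_pos rfl, mul_assoc]
  · intro s' hs' hne
    rw [star_mul, mul_assoc, ← mul_assoc (star (a s)), h s hs s' hs', if_neg hne.symm, zero_mul,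
      mul_zero]
  · intro h; exact absurd hs h

theorem X_compare {J : Type*} [DecidableEq J] (S : Finset J) (a b q q' u : J → A) (C : ℝ)
    (hC : 0 ≤ C)
    (ha : ∀ s ∈ S, ∀ s' ∈ S, star (a s) * a s' = if s = s' then q s else 0)
    (hb : ∀ s ∈ S, ∀ s' ∈ S, star (b s) * b s' = if s = s' then q' s else 0)
    (hq : ∀ s ∈ S, q' s ≤ (C ^ 2 : ℝ) • q s) :
    ‖∑ s ∈ S, b s * u s‖ ≤ C * ‖∑ s ∈ S, a s * u s‖ := by
  set D := ∑ s ∈ S, b s * u s with hD
  set X := ∑ s ∈ S, a s * u s with hX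
  have h1 : star D * D ≤ (C ^ 2 : ℝ) • (star X * X) := by
    rw [hD, hX, X_orth S b q' u u hb, X_orth S a q u u ha, Finset.smul_sum]
    refine Finset.sum_le_sum fun s hs => ?_
    have := star_left_conjugate_le_conjugate (hq s hs) (u s)
    refine this.trans (le_of_eq ?_)
    rw [mul_smul_comm, smul_mul_assoc]
  have h2 := CStarAlgebra.norm_le_norm_of_nonneg_of_le (star_mul_self_nonneg D) h1
  rw [norm_smul, CStarRing.norm_star_mul_self, CStarRing.norm_star_mul_self, Real.norm_eq_abs,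
    abs_of_nonneg (sq_nonneg C)] at h2
  have h3 : ‖D‖ ^ 2 ≤ (C * ‖X‖) ^ 2 := by nlinarith
  exact le_of_sq_le_sq h3 (by positivity)

theorem X_norm {J : Type*} [DecidableEq J] {n : ℕ} (S : Finset J) (a c q : J → A)
    (z : Fin n → J → A) (e1 : ℝ)
    (ha : ∀ s ∈ S, ∀ s' ∈ S, star (a s) * a s' = if s = s' then q s else 0)
    (hq : ∀ s ∈ S, 0 ≤ q s)
    (hz : ∀ s ∈ S, ‖∑ i, star (z i s) * q s * z i s - q s‖ ≤ e1)
    (h1 : (∑ s ∈ S, ‖c s‖ ^ 2) * e1 ≤ 1)
    (h2 : ‖∑ s ∈ S, c s * q s * star (c s)‖ ≤ 1) (i : Fin n) :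
    ‖∑ s ∈ S, a s * (z i s * star (c s))‖ ≤ 2 := by
  set X := ∑ s ∈ S, a s * (z i s * star (c s)) with hX
  have h3 : star X * X ≤ ∑ s ∈ S, c s * (∑ i, star (z i s) * q s * z i s) * star (c s) := by
    rw [hX, X_orth S a q _ _ ha]
    refine Finset.sum_le_sum fun s hs => ?_
    have h4 : star (z i s) * q s * z i s ≤ ∑ i, star (z i s) * q s * z i s :=
      Finset.single_le_sum (f := fun i => star (z i s) * q s * z i s)
        (fun i _ => star_left_conjugate_nonneg (hq s hs) _) (Finset.mem_univ i)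
    have h5 := star_right_conjugate_le_conjugate h4 (c s)
    refine le_trans (le_of_eq ?_) h5
    rw [star_mul, star_star]
    simp only [mul_assoc]
  have h4 := CStarAlgebra.norm_le_norm_of_nonneg_of_le (star_mul_self_nonneg X) h3
  rw [CStarRing.norm_star_mul_self] at h4
  have h5 : ∑ s ∈ S, c s * (∑ i, star (z i s) * q s * z i s) * star (c s) =
      (∑ s ∈ S, c s * q s * star (c s)) +
        ∑ s ∈ S, c s * (∑ i, star (z i s) * q s * z i s - q s) * star (c s) := by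
    rw [← Finset.sum_add_distrib]
    refine Finset.sum_congr rfl fun s _ => ?_
    rw [← add_mul, ← mul_add, add_sub_cancel]
  have h6 : ‖∑ s ∈ S, c s * (∑ i, star (z i s) * q s * z i s - q s) * star (c s)‖ ≤
      (∑ s ∈ S, ‖c s‖ ^ 2) * e1 := by
    rw [Finset.sum_mul]
    refine (norm_sum_le _ _).trans (Finset.sum_le_sum fun s hs => ?_)
    refine (norm_mul_le _ _).trans ?_
    rw [norm_star]
    have := (norm_mul_le (c s) (∑ i, star (z i s) * q s * z i s - q s)).trans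
      (mul_le_mul_of_nonneg_left (hz s hs) (norm_nonneg _))
    calc _ ≤ (‖c s‖ * e1) * ‖c s‖ := mul_le_mul_of_nonneg_right this (norm_nonneg _)
      _ = _ := by ring
  rw [h5] at h4
  have h7 := h4.trans (norm_add_le _ _)
  nlinarith [norm_nonneg X]

section

variable {r : ℕ} {k : Fin r → ℕ} (φ : FD k →CP A)

theorem X_E_mul_ne {b b' : Fin r} (hb : b ≠ b') (i j : Fin (k b)) (i' j' : Fin (k b')) :
    (O_E b i j : FD k) * O_E b' i' j' = 0 := by
  unfold O_E
  funext c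
  rw [Pi.mul_apply, Pi.zero_apply]
  by_cases hc : c = b
  · subst hc
    rw [Pi.single_eq_of_ne hb, mul_zero]
  · rw [Pi.single_eq_of_ne hc, zero_mul]

/-- the column elements -/
noncomputable def XF (p : Σ b : Fin r, Fin (k b)) : A := φ (O_E p.1 p.2 ⟨0, p.2.pos⟩)

/-- functions of `φ 1` -/
noncomputable def XY (f : ℝ → ℝ) : A := cfcₙ f (φ 1)

variable (h0 : ∀ x y : FD k, φ x * φ y = φ 1 * φ (x * y))

include h0

theorem X_comm1 (x : FD k) : φ 1 * φ x = φ x * φ 1 := by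
  rw [h0 x 1, mul_one]

theorem X_commY (f : ℝ → ℝ) (x : FD k) : XY φ f * φ x = φ x * XY φ f :=
  Commute.cfcₙ_real (show Commute (φ 1) (φ x) from X_comm1 φ h0 x) f

omit h0 in
theorem X_starY (f : ℝ → ℝ) : star (XY φ f) = XY φ f :=
  (IsSelfAdjoint.cfcₙ : IsSelfAdjoint (cfcₙ f (φ 1))).star_eq

theorem X_F_star_mul (p p' : Σ b : Fin r, Fin (k b)) : star (XF φ p) * XF φ p' =
    if p = p' then φ 1 * φ (O_E p.1 ⟨0, p.2.pos⟩ ⟨0, p.2.pos⟩) else 0 := by
  obtain ⟨b, i⟩ := p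
  obtain ⟨b', i'⟩ := p'
  unfold XF
  rw [← O_star, O_E_star, h0]
  by_cases hb : b = b'
  · subst hb
    rw [O_E_mul]
    by_cases hi : i = i'
    · subst hi; simp
    · rw [if_neg hi, if_neg (by simpa using hi)]; simp
  · rw [X_E_mul_ne hb, if_neg (by rintro h; exact hb (congrArg Sigma.fst h))]; simp

theorem X_F_mul_star (p : Σ b : Fin r, Fin (k b)) : XF φ p * star (XF φ p) =
    φ 1 * φ (O_E p.1 p.2 p.2) := by
  unfold XF
  rw [← O_star, O_E_star, h0, O_E_mul, if_pos rfl]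

theorem X_f_mul_F (b : Fin r) (i j : Fin (k b)) (p : Σ b : Fin r, Fin (k b)) :
    φ (O_E b i j) * XF φ p = if p = ⟨b, j⟩ then φ 1 * XF φ ⟨b, i⟩ else 0 := by
  obtain ⟨b', i'⟩ := p
  unfold XF
  rw [h0]
  by_cases hb : b = b'
  · subst hb
    rw [O_E_mul]
    by_cases hi : j = i'
    · subst hi; simp
    · rw [if_neg hi, if_neg (by simpa using fun h => hi h.symm)]; simp
  · rw [X_E_mul_ne hb, if_neg (by rintro h; exact hb (congrArg Sigma.fst h).symm)]; simp

omit h0 in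
theorem X_sum_E : ∑ p : (Σ b : Fin r, Fin (k b)), φ (O_E p.1 p.2 p.2) = φ 1 := by
  rw [← map_sum, Fintype.sum_sigma]
  congr 1
  conv_rhs => rw [O_E_sum (1 : FD k)]
  refine Finset.sum_congr rfl fun b _ => Finset.sum_congr rfl fun i _ => ?_
  rw [Finset.sum_eq_single i]
  · rw [Pi.one_apply, CStarMatrix.one_apply_eq, one_smul]
  · intro j _ hj
    rw [Pi.one_apply, CStarMatrix.one_apply_ne hj.symm, zero_smul]
  · intro h; exact absurd (Finset.mem_univ _) h

theorem X_commYF (g : ℝ → ℝ) (p : Σ b : Fin r, Fin (k b)) :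
    XY φ g * XF φ p = XF φ p * XY φ g := X_commY φ h0 g _

theorem X_commYFs (g : ℝ → ℝ) (p : Σ b : Fin r, Fin (k b)) :
    XY φ g * star (XF φ p) = star (XF φ p) * XY φ g := by
  unfold XF
  rw [← O_star, X_commY φ h0]

theorem X_FY_star_mul (p p' : Σ b : Fin r, Fin (k b)) (f g : ℝ → ℝ) :
    star (XF φ p * XY φ f) * (XF φ p' * XY φ g) =
      (XY φ f * XY φ g) * (star (XF φ p) * XF φ p') := by
  rw [star_mul, X_starY, ← X_commYF φ h0 g p', mul_assoc, mul_assoc, ← mul_assoc (star _),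
    ← X_commYFs φ h0 g p, mul_assoc]

theorem X_FY_mul_star (p : Σ b : Fin r, Fin (k b)) (f g : ℝ → ℝ) :
    (XF φ p * XY φ f) * star (XF φ p * XY φ g) =
      (XY φ f * XY φ g) * (XF φ p * star (XF φ p)) := by
  rw [star_mul, X_starY, ← X_commYF φ h0 f p, mul_assoc, mul_assoc, ← mul_assoc (XF φ p),
    ← X_commYF φ h0 g p, mul_assoc]

omit h0 in
/-- products of functions -/
theorem X_Y_mul {f g h : ℝ → ℝ} (hf : Continuous f) (hg : Continuous g) (hf0 : f 0 = 0)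
    (hg0 : g 0 = 0) (hh : ∀ s, f s * g s = h s) : XY φ f * XY φ g = XY φ h := by
  unfold XY
  rw [← cfcₙ_mul f g (φ 1) hf.continuousOn hf0 hg.continuousOn hg0]
  congr 1
  funext s
  exact hh s

end

/-! ### Part 3 -/

section

variable {r : ℕ} {k : Fin r → ℕ} (φ : FD k →CP A)

theorem X_one_nonneg : 0 ≤ φ 1 := by
  have : (0 : FD k) ≤ 1 := by simp
  exact map_nonneg φ this

theorem X_Y_id : XY φ (fun s => s) = φ 1 := by
  unfold XY
  exact cfcₙ_id' ℝ (φ 1) (IsSelfAdjoint.of_nonneg (X_one_nonneg φ))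

theorem X_Y_smul (c : ℝ) (f : ℝ → ℝ) (hf : Continuous f) (hf0 : f 0 = 0) :
    XY φ (fun s => c * f s) = c • XY φ f := by
  unfold XY
  exact cfcₙ_const_mul c f (φ 1) hf.continuousOn hf0

theorem X_Y_sub {f g : ℝ → ℝ} (hf : Continuous f) (hg : Continuous g) (hf0 : f 0 = 0)
    (hg0 : g 0 = 0) : XY φ f - XY φ g = XY φ (fun s => f s - g s) := by
  unfold XY
  exact (cfcₙ_sub f g (φ 1) hf.continuousOn hf0 hg.continuousOn hg0).symm

/-- the elements `a` -/
noncomputable def Xa (R l : ℕ) (p : Σ b : Fin r, Fin (k b)) : A := XF φ p * XY φ (Xeta R l)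

noncomputable def Xd (R l : ℕ) (s : ℝ) : ℝ := s * Xeta R l s - (l + 2) / R * Xeta R l s

noncomputable def Xb (R l : ℕ) (p : Σ b : Fin r, Fin (k b)) : A := XF φ p * XY φ (Xd R l)

theorem X_d_cont {R : ℕ} (hR : 0 < R) (l : ℕ) : Continuous (Xd R l) := by
  unfold Xd
  have := X_eta_cont hR l
  fun_prop

theorem X_d_zero (R l : ℕ) : Xd R l 0 = 0 := by
  unfold Xd; rw [X_eta_zero]; simp

noncomputable def Xq (R l : ℕ) (p : Σ b : Fin r, Fin (k b)) : A := star (Xa φ R l p) * Xa φ R l p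

theorem X_q_nonneg (R l : ℕ) (p : Σ b : Fin r, Fin (k b)) : 0 ≤ Xq φ R l p :=
  star_mul_self_nonneg _

variable (h0 : ∀ x y : FD k, φ x * φ y = φ 1 * φ (x * y))

include h0

theorem X_a_orth {R : ℕ} (hR : 0 < R) {l l' : ℕ} (hp : l % 2 = l' % 2)
    (p p' : Σ b : Fin r, Fin (k b)) : star (Xa φ R l p) * Xa φ R l' p' =
      if (l, p) = (l', p') then Xq φ R l p else 0 := by
  by_cases h : (l, p) = (l', p')
  · rw [if_pos h]
    simp only [Prod.mk.injEq] at h
    obtain ⟨rfl, rfl⟩ := h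
    rfl
  · rw [if_neg h]
    unfold Xa
    rw [X_FY_star_mul φ h0]
    by_cases hl : l = l'
    · subst hl
      rw [X_F_star_mul φ h0, if_neg (by rintro rfl; exact h rfl), mul_zero]
    · rw [X_Y_mul φ (h := fun _ => 0) (X_eta_cont hR l) (X_eta_cont hR l') (X_eta_zero R l)
        (X_eta_zero R l') (fun s => X_eta_mul R hl hp s)]
      unfold XY
      rw [cfcₙ_const_zero, zero_mul]

theorem X_b_orth {R : ℕ} (hR : 0 < R) {l l' : ℕ} (hp : l % 2 = l' % 2)
    (p : Σ b : Fin r, Fin (k b)) : star (Xb φ R l p) * Xb φ R l' p =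
      if l = l' then star (Xb φ R l p) * Xb φ R l p else 0 := by
  by_cases hl : l = l'
  · rw [if_pos hl, hl]
  · rw [if_neg hl]
    unfold Xb
    rw [X_FY_star_mul φ h0]
    rw [X_Y_mul φ (h := fun _ => 0) (X_d_cont hR l) (X_d_cont hR l') (X_d_zero R l)
        (X_d_zero R l') (fun s => by
          unfold Xd
          have := X_eta_mul R hl hp s
          linear_combination (s - (l + 2) / R) * (s - (l' + 2) / R) * this)]
    unfold XY
    rw [cfcₙ_const_zero, zero_mul]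

theorem X_q_eq (R l : ℕ) (b : Fin r) (i j : Fin (k b)) :
    Xq φ R l ⟨b, i⟩ = Xq φ R l ⟨b, j⟩ := by
  unfold Xq Xa
  rw [X_FY_star_mul φ h0, X_FY_star_mul φ h0, X_F_star_mul φ h0, X_F_star_mul φ h0, if_pos rfl,
    if_pos rfl]

theorem X_sum_a {R : ℕ} (hR : 0 < R) (l : ℕ) :
    ∑ p, Xa φ R l p * star (Xa φ R l p) = XY φ (Xp R l) := by
  have h1 : ∀ p, Xa φ R l p * star (Xa φ R l p) =
      (XY φ (Xeta R l) * XY φ (Xeta R l)) * (φ 1 * φ (O_E p.1 p.2 p.2)) := by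
    intro p
    unfold Xa
    rw [X_FY_mul_star φ h0, X_F_mul_star φ h0]
  rw [Finset.sum_congr rfl fun p _ => h1 p, ← Finset.mul_sum, ← Finset.mul_sum, X_sum_E,
    ← X_Y_id φ]
  have hc := X_eta_cont hR l
  rw [X_Y_mul φ (f := fun s => s) (g := fun s => s) (h := fun s => s * s) continuous_id
      continuous_id rfl rfl (fun s => rfl),
    X_Y_mul φ (h := fun s => Xeta R l s * Xeta R l s) hc hc (X_eta_zero R l) (X_eta_zero R l)
      (fun s => rfl)]
  refine X_Y_mul φ (by fun_prop) (by fun_prop) (by simp [X_eta_zero]) (by simp) fun s => ?_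
  have := X_mul_eta hR l s
  calc _ = (s * Xeta R l s) * (s * Xeta R l s) := by ring
    _ = _ := by rw [this, Real.mul_self_sqrt (X_p_nonneg R l s)]

theorem X_sum_q {R : ℕ} (hR : 0 < R) (l : ℕ) :
    ∑ p, Xa φ R l p * Xq φ R l p * star (Xa φ R l p) = XY φ (fun s => Xp R l s ^ 2) := by
  have h1 := X_orth (Finset.univ : Finset (Σ b : Fin r, Fin (k b))) (Xa φ R l) (Xq φ R l)
    (fun p => star (Xa φ R l p)) (fun p => star (Xa φ R l p)) (by
      intro p _ p' _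
      rw [X_a_orth φ h0 hR rfl]
      simp)
  rw [X_sum_a φ h0 hR, X_starY, X_Y_mul φ (h := fun s => Xp R l s ^ 2) (X_p_cont R l)
    (X_p_cont R l) (X_p_zero R l (by simp)) (X_p_zero R l (by simp)) (fun s => by ring)] at h1
  rw [h1]
  simp only [star_star]

theorem X_b_eq {R : ℕ} (hR : 0 < R) (l : ℕ) (p : Σ b : Fin r, Fin (k b)) :
    φ 1 * Xa φ R l p - ((l + 2) / R : ℝ) • Xa φ R l p = Xb φ R l p := by
  have hc := X_eta_cont hR l
  have h1 : XY φ (fun s => s * Xeta R l s) = φ 1 * XY φ (Xeta R l) := by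
    rw [← X_Y_id φ]
    exact (X_Y_mul φ continuous_id hc rfl (X_eta_zero R l) (fun s => rfl)).symm
  have h2 : XY φ (Xd R l) = φ 1 * XY φ (Xeta R l) - ((l + 2) / R : ℝ) • XY φ (Xeta R l) := by
    rw [← h1, ← X_Y_smul φ _ _ hc (X_eta_zero R l),
      X_Y_sub φ (by fun_prop) (by fun_prop) (by simp) (by simp [X_eta_zero])]
    rfl
  unfold Xb Xa
  rw [h2, mul_sub, mul_smul_comm, ← mul_assoc, ← mul_assoc]
  congr 2
  unfold XF
  rw [X_comm1 φ h0]

theorem X_b_le {R : ℕ} (hR : 0 < R) (l : ℕ) (p : Σ b : Fin r, Fin (k b)) :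
    star (Xb φ R l p) * Xb φ R l p ≤ ((1 / R : ℝ) ^ 2) • Xq φ R l p := by
  have hc := X_eta_cont hR l
  have h1 : ((1 / R : ℝ) ^ 2) • Xq φ R l p - star (Xb φ R l p) * Xb φ R l p =
      star (XF φ p * XY φ (Xom R l)) * (XF φ p * XY φ (Xom R l)) := by
    unfold Xq Xb Xa
    rw [X_FY_star_mul φ h0, X_FY_star_mul φ h0, X_FY_star_mul φ h0, ← smul_mul_assoc, ← sub_mul]
    congr 1
    rw [X_Y_mul φ (h := fun s => Xeta R l s * Xeta R l s) hc hc (X_eta_zero R l)
        (X_eta_zero R l) (fun s => rfl),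
      X_Y_mul φ (h := fun s => Xd R l s * Xd R l s) (X_d_cont hR l) (X_d_cont hR l)
        (X_d_zero R l) (X_d_zero R l) (fun s => rfl),
      ← X_Y_smul φ _ _ (by fun_prop) (by simp [X_eta_zero])]
    have := X_d_cont hR l
    rw [X_Y_sub φ (by fun_prop) (by fun_prop) (by simp [X_eta_zero]) (by simp [X_d_zero])]
    symm
    refine X_Y_mul φ (X_om_cont hR l) (X_om_cont hR l) (X_om_zero R l) (X_om_zero R l)
      fun s => ?_
    rw [X_om_sq hR]
    rfl
  have h2 : 0 ≤ ((1 / R : ℝ) ^ 2) • Xq φ R l p - star (Xb φ R l p) * Xb φ R l p := by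
    rw [h1]; exact star_mul_self_nonneg _
  exact sub_nonneg.mp h2

end

/-! ### Part 4 -/

theorem X_spec (a : A) (ha : 0 ≤ a) (h1 : ‖a‖ ≤ 1) {x : ℝ} (hx : x ∈ quasispectrum ℝ a) :
    0 ≤ x ∧ x ≤ 1 := by
  refine ⟨quasispectrum_nonneg_of_nonneg a ha x hx, ?_⟩
  have := NonUnitalIsometricContinuousFunctionalCalculus.norm_quasispectrum_le a hx
    (IsSelfAdjoint.of_nonneg ha)
  exact (le_abs_self x).trans (this.trans h1)

theorem X_sq_le (t : A) (ht : 0 ≤ t) (h1 : ‖t‖ ≤ 1) : t * t ≤ t := by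
  have hs : IsSelfAdjoint t := IsSelfAdjoint.of_nonneg ht
  have e1 : t * t = cfcₙ (fun s : ℝ => s * s) t := by
    rw [cfcₙ_mul (fun s : ℝ => s) (fun s : ℝ => s) t, cfcₙ_id' ℝ t]
  have e2 : cfcₙ (fun s : ℝ => s * s) t ≤ cfcₙ (fun s : ℝ => s) t := by
    refine cfcₙ_mono fun x hx => ?_
    have := X_spec t ht h1 hx
    nlinarith [this.1, this.2]
  rw [cfcₙ_id' ℝ t] at e2
  rw [e1]
  exact e2

theorem X_theta (x V : A) (hx : 0 ≤ x) (hV : star V = V) :
    0 ≤ x - V * x - x * V + V * x * V := by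
  obtain ⟨y, rfl⟩ := O_exists_sq x hx
  have : star y * y - V * (star y * y) - star y * y * V + V * (star y * y) * V =
      star (y - y * V) * (y - y * V) := by
    rw [star_sub, star_mul, hV]
    noncomm_ring
  rw [this]
  exact star_mul_self_nonneg _

noncomputable def Xm (R : ℕ) (s : ℝ) : ℝ := min 1 (2 * Xg R s)

noncomputable def Xv (R : ℕ) (s : ℝ) : ℝ := 1 - √(1 - Xm R s)

theorem X_m_cont (R : ℕ) : Continuous (Xm R) := by
  unfold Xm
  have := X_g_cont R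
  fun_prop

theorem X_v_cont (R : ℕ) : Continuous (Xv R) := by
  unfold Xv
  have := X_m_cont R
  fun_prop

theorem X_m_zero (R : ℕ) : Xm R 0 = 0 := by
  unfold Xm; rw [X_g_zero R (by simp)]; simp

theorem X_v_zero (R : ℕ) : Xv R 0 = 0 := by
  unfold Xv; rw [X_m_zero]; simp

theorem X_m_le (R : ℕ) (s : ℝ) : Xm R s ≤ 1 := min_le_left _ _

theorem X_m_nonneg (R : ℕ) (s : ℝ) : 0 ≤ Xm R s :=
  le_min zero_le_one (by have := X_g_nonneg R s; linarith)

theorem X_v_sq (R : ℕ) (s : ℝ) : (1 - Xv R s) * (1 - Xv R s) = 1 - Xm R s := by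
  unfold Xv
  rw [sub_sub_cancel]
  exact Real.mul_self_sqrt (by have := X_m_le R s; linarith)

section

variable {r : ℕ} {k : Fin r → ℕ} (φ : FD k →CP A)

theorem X_Y_add {f g : ℝ → ℝ} (hf : Continuous f) (hg : Continuous g) (hf0 : f 0 = 0)
    (hg0 : g 0 = 0) : XY φ f + XY φ g = XY φ (fun s => f s + g s) := by
  unfold XY
  exact (cfcₙ_add f g (φ 1) hf.continuousOn hf0 hg.continuousOn hg0).symm

theorem X_lower (hc : ‖φ 1‖ ≤ 1) {R : ℕ} (hR : 0 < R) (t : A) (ht : 0 ≤ t) (hte : t ≤ φ 1) :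
    ∃ r : A, 0 ≤ r ∧ ‖r‖ ≤ 2 / R ∧ t * t ≤ (2 : ℝ) • (t * XY φ (Xg R) * t) + r := by
  have hR' : (0 : ℝ) < R := by exact_mod_cast hR
  have he := X_one_nonneg φ
  have hts : star t = t := (IsSelfAdjoint.of_nonneg ht).star_eq
  have ht1 : ‖t‖ ≤ 1 := (CStarAlgebra.norm_le_norm_of_nonneg_of_le ht hte).trans hc
  have htt : t * t ≤ φ 1 := (X_sq_le t ht ht1).trans hte
  have hvc := X_v_cont R
  have hmc := X_m_cont R
  have hgc := X_g_cont R
  have hv0 := X_v_zero R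
  have hm0 := X_m_zero R
  have hg0 : Xg R 0 = 0 := X_g_zero R (by simp)
  set V := XY φ (Xv R) with hV
  have hVs : star V = V := X_starY φ _
  set w := t - V * t with hw
  have hws : star w = t - t * V := by rw [hw, star_sub, star_mul, hts, hVs]
  refine ⟨star w * w, star_mul_self_nonneg w, ?_, ?_⟩
  · have e1 : ‖star w * w‖ = ‖w * star w‖ := by
      rw [CStarRing.norm_star_mul_self, CStarRing.norm_self_mul_star]
    have e2 : w * star w = t * t - V * (t * t) - t * t * V + V * (t * t) * V := by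
      rw [hws, hw]; noncomm_ring
    have e3 : w * star w ≤ φ 1 - V * φ 1 - φ 1 * V + V * φ 1 * V := by
      rw [e2, ← sub_nonneg]
      have := X_theta (φ 1 - t * t) V (sub_nonneg.mpr htt) hVs
      refine le_of_le_of_eq this ?_
      noncomm_ring
    have e4 : φ 1 - V * φ 1 - φ 1 * V + V * φ 1 * V =
        XY φ (fun s => s * (1 - Xm R s)) := by
      rw [← X_Y_id φ, hV, X_Y_mul φ (g := fun s => s) (h := fun s => Xv R s * s) hvc
        continuous_id hv0 rfl (fun s => rfl),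
        X_Y_mul φ (f := fun s => s) (h := fun s => s * Xv R s) continuous_id hvc rfl hv0 (fun s => rfl), X_Y_mul φ (h := fun s => Xv R s * s * Xv R s)
        (by fun_prop) hvc (by simp) hv0 (fun s => rfl),
        X_Y_sub φ (by fun_prop) (by fun_prop) rfl (by simp),
        X_Y_sub φ (by fun_prop) (by fun_prop) (by simp) (by simp),
        X_Y_add φ (by fun_prop) (by fun_prop) (by simp) (by simp)]
      congr 1
      funext s
      have := X_v_sq R s
      linear_combination s * this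
    have e5 : ‖XY φ (fun s => s * (1 - Xm R s))‖ ≤ 2 / R := by
      unfold XY
      refine norm_cfcₙ_le fun x hx => ?_
      have h1 := X_spec (φ 1) he hc hx
      have h2 := X_m_le R x
      have h3 := X_m_nonneg R x
      rw [Real.norm_eq_abs, abs_of_nonneg (mul_nonneg h1.1 (by linarith))]
      by_cases hx2 : 2 ≤ R * x
      · have h4 := X_g_half R hx2 h1.2
        have h5 : Xm R x = 1 := by
          unfold Xm; exact min_eq_left (by linarith)
        rw [h5, sub_self, mul_zero]; positivity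
      · have h4 : x ≤ 2 / R := by
          rw [le_div_iff₀ hR']; linarith
        nlinarith [h1.1]
    rw [e1]
    exact (CStarAlgebra.norm_le_norm_of_nonneg_of_le (mul_star_self_nonneg w) (e3.trans e4.le)).trans e5
  · have e1 : V + V - V * V = XY φ (Xm R) := by
      rw [hV, X_Y_mul φ (h := fun s => Xv R s * Xv R s) hvc hvc hv0 hv0 (fun s => rfl),
        X_Y_add φ hvc hvc hv0 hv0, X_Y_sub φ (by fun_prop) (by fun_prop) (by simp [hv0])
        (by simp [hv0])]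
      congr 1
      funext s
      have := X_v_sq R s
      linear_combination -this
    have e2 : t * t = t * XY φ (Xm R) * t + star w * w := by
      rw [← e1, hws, hw]; noncomm_ring
    have e3 : XY φ (Xm R) ≤ (2 : ℝ) • XY φ (Xg R) := by
      rw [← X_Y_smul φ _ _ hgc hg0]
      unfold XY
      refine cfcₙ_mono (fun x _ => min_le_right _ _) ?_ ?_
      · fun_prop
      · fun_prop
    have e4 := star_left_conjugate_le_conjugate e3 t
    rw [hts, mul_smul_comm, smul_mul_assoc] at e4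
    calc t * t = t * XY φ (Xm R) * t + star w * w := e2
      _ ≤ _ := add_le_add e4 le_rfl

end

/-! ### Part 5 -/

section

variable {r : ℕ} {k : Fin r → ℕ} (φ : FD k →CP A)

/-- indices of color `σ` -/
def XS (R : ℕ) (σ : Fin 2) : Finset ℕ := (Finset.range R).filter (fun l => l % 2 = (σ : ℕ))

/-- The elements `X`. -/
noncomputable def XX {n M : ℕ} (R : ℕ) (Z : A → Fin n → Fin M → A) (σ : Fin 2) (i : Fin n)
    (j : Fin M) : A :=
  ∑ s ∈ XS R σ ×ˢ (Finset.univ : Finset (Σ b : Fin r, Fin (k b))),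
    Xa φ R s.1 s.2 * (Z (Xq φ R s.1 s.2) i j * star (Xa φ R s.1 s.2))

theorem X_mem {R : ℕ} {σ : Fin 2} {l : ℕ} (h : l ∈ XS R σ) : l % 2 = (σ : ℕ) := by
  unfold XS at h
  rw [Finset.mem_filter] at h
  exact h.2

theorem X_mem_range {R : ℕ} {σ : Fin 2} {l : ℕ} (h : l ∈ XS R σ) : l ∈ Finset.range R := by
  unfold XS at h
  rw [Finset.mem_filter] at h
  exact h.1

theorem X_sum_color {B : Type*} [AddCommMonoid B] (R : ℕ) (F : ℕ → B) :
    ∑ σ : Fin 2, ∑ l ∈ XS R σ, F l = ∑ l ∈ Finset.range R, F l := by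
  have := Finset.sum_fiberwise (Finset.range R) (fun l => (⟨l % 2, Nat.mod_lt _ two_pos⟩ : Fin 2)) F
  rw [← this]
  refine Finset.sum_congr rfl fun σ _ => ?_
  unfold XS
  refine Finset.sum_congr ?_ fun _ _ => rfl
  ext l
  simp only [Finset.mem_filter, Finset.mem_range, Fin.ext_iff]

variable (h0 : ∀ x y : FD k, φ x * φ y = φ 1 * φ (x * y))

include h0

theorem X_orth_S {R : ℕ} (hR : 0 < R) (σ : Fin 2) :
    ∀ s ∈ XS R σ ×ˢ (Finset.univ : Finset (Σ b : Fin r, Fin (k b))),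
    ∀ s' ∈ XS R σ ×ˢ (Finset.univ : Finset (Σ b : Fin r, Fin (k b))),
      star (Xa φ R s.1 s.2) * Xa φ R s'.1 s'.2 = if s = s' then Xq φ R s.1 s.2 else 0 := by
  intro s hs s' hs'
  rw [Finset.mem_product] at hs hs'
  exact X_a_orth φ h0 hR ((X_mem hs.1).trans (X_mem hs'.1).symm) s.2 s'.2

/-- the diagonal sum -/
theorem X_sum_G {R : ℕ} (hR : 0 < R) :
    ∑ l ∈ Finset.range R, ∑ p, Xa φ R l p * Xq φ R l p * star (Xa φ R l p) = XY φ (Xg R) := by
  rw [Finset.sum_congr rfl fun l _ => X_sum_q φ h0 hR l]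
  unfold XY
  symm
  have := cfcₙ_sum (fun (l : ℕ) (s : ℝ) => Xp R l s ^ 2) (φ 1) (Finset.range R)
    (fun l _ => by have := X_p_cont R l; fun_prop) (fun l _ => by simp [X_p_zero])
  rw [← this]
  congr 1
  funext s
  simp [Xg]

omit h0 in
theorem X_term_nonneg (R l : ℕ) (p : Σ b : Fin r, Fin (k b)) :
    0 ≤ Xa φ R l p * Xq φ R l p * star (Xa φ R l p) :=
  star_right_conjugate_nonneg (X_q_nonneg φ R l p) _

omit h0 in
theorem X_G_norm (_hc : ‖φ 1‖ ≤ 1) (R : ℕ) : ‖XY φ (Xg R)‖ ≤ 1 := by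
  unfold XY
  refine norm_cfcₙ_le fun x hx => ?_
  rw [Real.norm_eq_abs, abs_of_nonneg (X_g_nonneg R x)]
  exact X_g_le_one R x

theorem X_bound_S (hc : ‖φ 1‖ ≤ 1) {R : ℕ} (hR : 0 < R) (σ : Fin 2) :
    ‖∑ s ∈ XS R σ ×ˢ (Finset.univ : Finset (Σ b : Fin r, Fin (k b))),
      Xa φ R s.1 s.2 * Xq φ R s.1 s.2 * star (Xa φ R s.1 s.2)‖ ≤ 1 := by
  refine le_trans ?_ (X_G_norm φ hc R)
  rw [← X_sum_G φ h0 hR, Finset.sum_product]
  refine CStarAlgebra.norm_le_norm_of_nonneg_of_le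
    (Finset.sum_nonneg fun l _ => Finset.sum_nonneg fun p _ => X_term_nonneg φ R l p) ?_
  refine Finset.sum_le_sum_of_subset_of_nonneg (fun l hl => X_mem_range hl) fun l _ _ =>
    Finset.sum_nonneg fun p _ => X_term_nonneg φ R l p

theorem X_bound_p (hc : ‖φ 1‖ ≤ 1) {R : ℕ} (hR : 0 < R) (σ : Fin 2)
    (p : Σ b : Fin r, Fin (k b)) :
    ‖∑ l ∈ XS R σ, Xa φ R l p * Xq φ R l p * star (Xa φ R l p)‖ ≤ 1 := by
  refine le_trans ?_ (X_G_norm φ hc R)
  rw [← X_sum_G φ h0 hR]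
  refine CStarAlgebra.norm_le_norm_of_nonneg_of_le
    (Finset.sum_nonneg fun l _ => X_term_nonneg φ R l p) ?_
  refine (Finset.sum_le_sum fun l _ => Finset.single_le_sum
    (f := fun p => Xa φ R l p * Xq φ R l p * star (Xa φ R l p))
    (fun p _ => X_term_nonneg φ R l p) (Finset.mem_univ p)).trans ?_
  refine Finset.sum_le_sum_of_subset_of_nonneg (fun l hl => X_mem_range hl) fun l _ _ =>
    Finset.sum_nonneg fun p _ => X_term_nonneg φ R l p

/-- the constant in the error estimates -/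
noncomputable def XK (R : ℕ) : ℝ :=
  ∑ l ∈ Finset.range R, ∑ p : (Σ b : Fin r, Fin (k b)), ‖Xa φ R l p‖ ^ 2

omit h0 in
theorem X_K_nonneg (R : ℕ) : 0 ≤ XK φ R :=
  Finset.sum_nonneg fun _ _ => Finset.sum_nonneg fun _ _ => sq_nonneg _

omit h0 in
theorem X_K_S (R : ℕ) (σ : Fin 2) :
    ∑ s ∈ XS R σ ×ˢ (Finset.univ : Finset (Σ b : Fin r, Fin (k b))), ‖Xa φ R s.1 s.2‖ ^ 2
      ≤ XK φ R := by
  rw [Finset.sum_product]
  exact Finset.sum_le_sum_of_subset_of_nonneg (fun l hl => X_mem_range hl) fun l _ _ =>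
    Finset.sum_nonneg fun p _ => sq_nonneg _

omit h0 in
theorem X_K_p (R : ℕ) (σ : Fin 2) (p : Σ b : Fin r, Fin (k b)) :
    ∑ l ∈ XS R σ, ‖Xa φ R l p‖ ^ 2 ≤ XK φ R := by
  refine (Finset.sum_le_sum fun l _ => Finset.single_le_sum
    (f := fun p => ‖Xa φ R l p‖ ^ 2)
    (fun p _ => sq_nonneg _) (Finset.mem_univ p)).trans ?_
  exact Finset.sum_le_sum_of_subset_of_nonneg (fun l hl => X_mem_range hl) fun l _ _ =>
    Finset.sum_nonneg fun p _ => sq_nonneg _

variable {n M : ℕ} (Z : A → Fin n → Fin M → A) (e1 : ℝ)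
  (hZ : ∀ h : A, 0 ≤ h → ∀ j j', ‖∑ i, star (Z h i j) * h * Z h i j' -
    (if j = j' then h else 0)‖ ≤ e1)

include hZ

theorem X_X_norm (hc : ‖φ 1‖ ≤ 1) {R : ℕ} (hR : 0 < R) (he : 0 ≤ e1) (h1 : XK φ R * e1 ≤ 1)
    (σ : Fin 2) (i : Fin n) (j : Fin M) : ‖XX φ R Z σ i j‖ ≤ 2 := by
  unfold XX
  refine X_norm (n := n) (XS R σ ×ˢ (Finset.univ : Finset (Σ b : Fin r, Fin (k b))))
    (fun s => Xa φ R s.1 s.2) (fun s => Xa φ R s.1 s.2) (fun s => Xq φ R s.1 s.2)
    (fun i s => Z (Xq φ R s.1 s.2) i j) e1 (X_orth_S φ h0 hR σ) (fun s _ => X_q_nonneg φ R _ _)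
    (fun s _ => ?_) ?_ (X_bound_S φ h0 hc hR σ) i
  · have := hZ (Xq φ R s.1 s.2) (X_q_nonneg φ R _ _) j j
    rwa [if_pos rfl] at this
  · exact (mul_le_mul_of_nonneg_right (X_K_S φ R σ) he).trans h1

theorem X_Y_norm (hc : ‖φ 1‖ ≤ 1) {R : ℕ} (hR : 0 < R) (he : 0 ≤ e1) (h1 : XK φ R * e1 ≤ 1)
    (σ : Fin 2) (i : Fin n) (j : Fin M) (b : Fin r) (v w : Fin (k b)) :
    ‖∑ l ∈ XS R σ, Xa φ R l ⟨b, v⟩ * (Z (Xq φ R l ⟨b, v⟩) i j * star (Xa φ R l ⟨b, w⟩))‖ ≤ 2 := by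
  refine X_norm (n := n) (XS R σ) (fun l => Xa φ R l ⟨b, v⟩) (fun l => Xa φ R l ⟨b, w⟩)
    (fun l => Xq φ R l ⟨b, v⟩) (fun i l => Z (Xq φ R l ⟨b, v⟩) i j) e1 ?_
    (fun s _ => X_q_nonneg φ R _ _) (fun s _ => ?_) ?_ ?_ i
  · intro l hl l' hl'
    rw [X_a_orth φ h0 hR ((X_mem hl).trans (X_mem hl').symm)]
    simp
  · have := hZ (Xq φ R s ⟨b, v⟩) (X_q_nonneg φ R _ _) j j
    rwa [if_pos rfl] at this
  · exact (mul_le_mul_of_nonneg_right (X_K_p φ R σ _) he).trans h1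
  · have := X_bound_p φ h0 hc hR σ ⟨b, w⟩
    have e : ∀ l, Xq φ R l ⟨b, v⟩ = Xq φ R l ⟨b, w⟩ := fun l => X_q_eq φ h0 R l b v w
    simp only [e]
    exact this

theorem X_gram {R : ℕ} (hR : 0 < R) (j j' : Fin M) :
    ‖∑ i : Fin 2 × Fin n, star (XX φ R Z i.1 i.2 j) * XX φ R Z i.1 i.2 j' -
      (if j = j' then XY φ (Xg R) else 0)‖ ≤ XK φ R * e1 := by
  have h1 : ∑ i : Fin 2 × Fin n, star (XX φ R Z i.1 i.2 j) * XX φ R Z i.1 i.2 j' =
      ∑ l ∈ Finset.range R, ∑ p, Xa φ R l p *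
        (∑ i, star (Z (Xq φ R l p) i j) * Xq φ R l p * Z (Xq φ R l p) i j') *
          star (Xa φ R l p) := by
    rw [Fintype.sum_prod_type, ← X_sum_color]
    refine Finset.sum_congr rfl fun σ _ => ?_
    have h2 : ∀ i, star (XX φ R Z σ i j) * XX φ R Z σ i j' =
        ∑ l ∈ XS R σ, ∑ p, Xa φ R l p *
        (star (Z (Xq φ R l p) i j) * Xq φ R l p * Z (Xq φ R l p) i j') * star (Xa φ R l p) := by
      intro i
      unfold XX
      rw [X_orth _ (fun s : ℕ × (Σ b : Fin r, Fin (k b)) => Xa φ R s.1 s.2)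
        (fun s => Xq φ R s.1 s.2) _ _ (X_orth_S φ h0 hR σ), Finset.sum_product]
      refine Finset.sum_congr rfl fun l _ => Finset.sum_congr rfl fun p _ => ?_
      rw [star_mul, star_star]
      simp only [mul_assoc]
    rw [Finset.sum_congr rfl fun i _ => h2 i, Finset.sum_comm]
    refine Finset.sum_congr rfl fun l _ => ?_
    rw [Finset.sum_comm]
    refine Finset.sum_congr rfl fun p _ => ?_
    rw [Finset.mul_sum, Finset.sum_mul]
  have h2 : (if j = j' then XY φ (Xg R) else 0) =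
      ∑ l ∈ Finset.range R, ∑ p, Xa φ R l p * (if j = j' then Xq φ R l p else 0) *
          star (Xa φ R l p) := by
    by_cases hj : j = j'
    · simp only [if_pos hj]
      rw [X_sum_G φ h0 hR]
    · simp only [if_neg hj, mul_zero, zero_mul, Finset.sum_const_zero]
  rw [h1, h2, ← Finset.sum_sub_distrib]
  unfold XK
  rw [Finset.sum_mul]
  refine (norm_sum_le _ _).trans (Finset.sum_le_sum fun l _ => ?_)
  rw [← Finset.sum_sub_distrib, Finset.sum_mul]
  refine (norm_sum_le _ _).trans (Finset.sum_le_sum fun p _ => ?_)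
  rw [← sub_mul, ← mul_sub]
  refine (norm_mul_le _ _).trans ?_
  rw [norm_star]
  have := (norm_mul_le (Xa φ R l p) _).trans
      (mul_le_mul_of_nonneg_left (hZ (Xq φ R l p) (X_q_nonneg φ R _ _) j j') (norm_nonneg _))
  calc _ ≤ (‖Xa φ R l p‖ * e1) * ‖Xa φ R l p‖ := mul_le_mul_of_nonneg_right this (norm_nonneg _)
    _ = _ := by ring

theorem X_comm_unit (hc : ‖φ 1‖ ≤ 1) {R : ℕ} (hR : 0 < R) (he : 0 ≤ e1) (h1 : XK φ R * e1 ≤ 1)
    (σ : Fin 2) (i : Fin n) (j : Fin M) (b : Fin r) (v w : Fin (k b)) :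
    ‖XX φ R Z σ i j * φ (O_E b v w) - φ (O_E b v w) * XX φ R Z σ i j‖ ≤ 4 / R := by
  have hR' : (0 : ℝ) < R := by exact_mod_cast hR
  have eq : ∀ l, Xq φ R l ⟨b, v⟩ = Xq φ R l ⟨b, w⟩ := fun l => X_q_eq φ h0 R l b v w
  have hfa : ∀ (v w : Fin (k b)) (l : ℕ) (p : Σ b : Fin r, Fin (k b)),
      φ (O_E b v w) * Xa φ R l p = if p = ⟨b, w⟩ then φ 1 * Xa φ R l ⟨b, v⟩ else 0 := by
    intro v w l p
    unfold Xa
    rw [← mul_assoc, X_f_mul_F φ h0]
    by_cases hp : p = ⟨b, w⟩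
    · rw [if_pos hp, if_pos hp, mul_assoc]
    · rw [if_neg hp, if_neg hp, zero_mul]
  -- left multiplication
  have hL : φ (O_E b v w) * XX φ R Z σ i j = ∑ l ∈ XS R σ,
      (φ 1 * Xa φ R l ⟨b, v⟩) * (Z (Xq φ R l ⟨b, v⟩) i j * star (Xa φ R l ⟨b, w⟩)) := by
    unfold XX
    rw [Finset.sum_product, Finset.mul_sum]
    refine Finset.sum_congr rfl fun l _ => ?_
    rw [Finset.mul_sum, Finset.sum_eq_single (⟨b, w⟩ : Σ b : Fin r, Fin (k b))]
    · rw [← mul_assoc, hfa, if_pos rfl, eq]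
    · intro p _ hp
      rw [← mul_assoc, hfa, if_neg hp, zero_mul]
    · intro h; exact absurd (Finset.mem_univ _) h
  have hRt : XX φ R Z σ i j * φ (O_E b v w) = ∑ l ∈ XS R σ,
      Xa φ R l ⟨b, v⟩ * (Z (Xq φ R l ⟨b, v⟩) i j * star (φ 1 * Xa φ R l ⟨b, w⟩)) := by
    unfold XX
    rw [Finset.sum_product, Finset.sum_mul]
    refine Finset.sum_congr rfl fun l _ => ?_
    have hs : ∀ p, star (Xa φ R l p) * φ (O_E b v w) =
        if p = ⟨b, v⟩ then star (φ 1 * Xa φ R l ⟨b, w⟩) else 0 := by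
      intro p
      have := congrArg star (hfa w v l p)
      rw [star_mul, ← O_star, O_E_star] at this
      rw [this]
      by_cases hp : p = ⟨b, v⟩
      · rw [if_pos hp, if_pos hp]
      · rw [if_neg hp, if_neg hp, star_zero]
    rw [Finset.sum_mul, Finset.sum_eq_single (⟨b, v⟩ : Σ b : Fin r, Fin (k b))]
    · rw [mul_assoc, mul_assoc, hs, if_pos rfl]
    · intro p _ hp
      rw [mul_assoc, mul_assoc, hs, if_neg hp, mul_zero, mul_zero]
    · intro h; exact absurd (Finset.mem_univ _) h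
  have key : XX φ R Z σ i j * φ (O_E b v w) - φ (O_E b v w) * XX φ R Z σ i j =
      ∑ l ∈ XS R σ, Xa φ R l ⟨b, v⟩ * (Z (Xq φ R l ⟨b, v⟩) i j * star (Xb φ R l ⟨b, w⟩)) -
      ∑ l ∈ XS R σ, Xb φ R l ⟨b, v⟩ * (Z (Xq φ R l ⟨b, v⟩) i j * star (Xa φ R l ⟨b, w⟩)) := by
    rw [hL, hRt, ← Finset.sum_sub_distrib, ← Finset.sum_sub_distrib]
    refine Finset.sum_congr rfl fun l _ => ?_
    rw [← X_b_eq φ h0 hR, ← X_b_eq φ h0 hR, star_sub, star_smul, star_trivial ((l + 2) / R : ℝ),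
      mul_sub, mul_sub, sub_mul, mul_smul_comm, mul_smul_comm, smul_mul_assoc]
    abel
  have hbo : ∀ p : (Σ b : Fin r, Fin (k b)), ∀ l ∈ XS R σ, ∀ l' ∈ XS R σ,
      star (Xb φ R l p) * Xb φ R l' p =
        if l = l' then star (Xb φ R l p) * Xb φ R l p else 0 := fun p l hl l' hl' =>
    X_b_orth φ h0 hR ((X_mem hl).trans (X_mem hl').symm) p
  have hao : ∀ p : (Σ b : Fin r, Fin (k b)), ∀ l ∈ XS R σ, ∀ l' ∈ XS R σ,
      star (Xa φ R l p) * Xa φ R l' p = if l = l' then Xq φ R l p else 0 := by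
    intro p l hl l' hl'
    rw [X_a_orth φ h0 hR ((X_mem hl).trans (X_mem hl').symm)]
    simp
  have n1 : ‖∑ l ∈ XS R σ, Xb φ R l ⟨b, v⟩ *
      (Z (Xq φ R l ⟨b, v⟩) i j * star (Xa φ R l ⟨b, w⟩))‖ ≤ 2 / R := by
    refine (X_compare (XS R σ) (fun l => Xa φ R l ⟨b, v⟩) (fun l => Xb φ R l ⟨b, v⟩)
      (fun l => Xq φ R l ⟨b, v⟩) (fun l => star (Xb φ R l ⟨b, v⟩) * Xb φ R l ⟨b, v⟩) _ (1 / R)
      (by positivity) (hao _) (hbo _) (fun l _ => X_b_le φ h0 hR l _)).trans ?_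
    have := X_Y_norm φ h0 Z e1 hZ hc hR he h1 σ i j b v w
    calc _ ≤ 1 / (R : ℝ) * 2 := mul_le_mul_of_nonneg_left this (by positivity)
      _ = _ := by ring
  have n2 : ‖∑ l ∈ XS R σ, Xa φ R l ⟨b, v⟩ *
      (Z (Xq φ R l ⟨b, v⟩) i j * star (Xb φ R l ⟨b, w⟩))‖ ≤ 2 / R := by
    have e2 : star (∑ l ∈ XS R σ, Xa φ R l ⟨b, v⟩ *
        (Z (Xq φ R l ⟨b, v⟩) i j * star (Xb φ R l ⟨b, w⟩))) =
        ∑ l ∈ XS R σ, Xb φ R l ⟨b, w⟩ *
          (star (Z (Xq φ R l ⟨b, v⟩) i j) * star (Xa φ R l ⟨b, v⟩)) := by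
      rw [star_sum]
      refine Finset.sum_congr rfl fun l _ => ?_
      rw [star_mul, star_mul, star_star, mul_assoc]
    have e3 : star (∑ l ∈ XS R σ, Xa φ R l ⟨b, v⟩ *
        (Z (Xq φ R l ⟨b, v⟩) i j * star (Xa φ R l ⟨b, w⟩))) =
        ∑ l ∈ XS R σ, Xa φ R l ⟨b, w⟩ *
          (star (Z (Xq φ R l ⟨b, v⟩) i j) * star (Xa φ R l ⟨b, v⟩)) := by
      rw [star_sum]
      refine Finset.sum_congr rfl fun l _ => ?_
      rw [star_mul, star_mul, star_star, mul_assoc]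
    rw [← norm_star, e2]
    refine (X_compare (XS R σ) (fun l => Xa φ R l ⟨b, w⟩) (fun l => Xb φ R l ⟨b, w⟩)
      (fun l => Xq φ R l ⟨b, w⟩) (fun l => star (Xb φ R l ⟨b, w⟩) * Xb φ R l ⟨b, w⟩) _ (1 / R)
      (by positivity) (hao _) (hbo _) (fun l _ => X_b_le φ h0 hR l _)).trans ?_
    rw [← e3, norm_star]
    have := X_Y_norm φ h0 Z e1 hZ hc hR he h1 σ i j b v w
    calc _ ≤ 1 / (R : ℝ) * 2 := mul_le_mul_of_nonneg_left this (by positivity)
      _ = _ := by ring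
  rw [key]
  refine (norm_sub_le _ _).trans ?_
  calc _ ≤ 2 / (R : ℝ) + 2 / R := add_le_add n2 n1
    _ = _ := by ring

theorem X_comm_all (hc : ‖φ 1‖ ≤ 1) {R : ℕ} (hR : 0 < R) (he : 0 ≤ e1) (h1 : XK φ R * e1 ≤ 1)
    (σ : Fin 2) (i : Fin n) (j : Fin M) (y : FD k) :
    ‖XX φ R Z σ i j * φ y - φ y * XX φ R Z σ i j‖ ≤
      (∑ b : Fin r, (k b : ℝ) * (k b : ℝ)) * (4 / R) * ‖y‖ := by
  set X := XX φ R Z σ i j with hX
  have e : X * φ y - φ y * X = ∑ b, ∑ v, ∑ w, y b v w • (X * φ (O_E b v w) - φ (O_E b v w) * X) := by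
    conv_lhs => rw [O_E_sum y]
    simp only [map_sum, map_smul, Finset.mul_sum, Finset.sum_mul, mul_smul_comm, smul_mul_assoc,
      smul_sub, Finset.sum_sub_distrib]
  rw [e]
  have hn : ∀ b v w, ‖y b v w • (X * φ (O_E b v w) - φ (O_E b v w) * X)‖ ≤ (4 / R) * ‖y‖ := by
    intro b v w
    rw [norm_smul, mul_comm]
    have h2 : ‖y b v w‖ ≤ ‖y‖ := by
      refine (CStarMatrix.norm_entry_le_norm (M := y b) (i := v) (j := w)).trans ?_
      exact norm_le_pi_norm y b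
    have h3 := X_comm_unit φ h0 Z e1 hZ hc hR he h1 σ i j b v w
    exact mul_le_mul h3 h2 (norm_nonneg _) (by positivity)
  refine (norm_sum_le _ _).trans ?_
  rw [Finset.sum_mul, Finset.sum_mul]
  refine Finset.sum_le_sum fun b _ => ?_
  refine (norm_sum_le _ _).trans ?_
  refine (Finset.sum_le_sum fun v _ => (norm_sum_le _ _).trans
    (Finset.sum_le_sum fun w _ => hn b v w)).trans (le_of_eq ?_)
  simp only [Finset.sum_const, Finset.card_univ, Fintype.card_fin, nsmul_eq_mul]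
  ring

end

theorem exists_X {n : ℕ} (hW : WPI A n) {r : ℕ} {k : Fin r → ℕ} (φ : FD k →CP A)
    (hc : ∀ x, ‖φ x‖ ≤ ‖x‖) (h0 : ∀ x y : FD k, φ x * φ y = φ 1 * φ (x * y))
    (M : ℕ) (ε : ℝ) (hε : 0 < ε) :
    ∃ (X : Fin 2 × Fin n → Fin M → A) (G : A), 0 ≤ G ∧ ‖G‖ ≤ 1 ∧ (∀ i j, ‖X i j‖ ≤ 2) ∧
      (∀ j j', ‖∑ i, star (X i j) * X i j' - (if j = j' then G else 0)‖ < ε) ∧
      (∀ (y : FD k) i j, ‖X i j * φ y - φ y * X i j‖ ≤ ε * ‖y‖) ∧
      (∀ t : A, 0 ≤ t → t ≤ φ 1 → ∃ r : A, 0 ≤ r ∧ ‖r‖ ≤ ε ∧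
        t * t ≤ (2 : ℝ) • (t * G * t) + r) := by
  have hc1 : ‖φ 1‖ ≤ 1 := by
    refine (hc 1).trans ?_
    have h1 := CStarRing.norm_star_mul_self (x := (1 : FD k))
    rw [star_one, mul_one] at h1
    by_contra h2
    nlinarith [not_le.mp h2]
  set N : ℝ := ∑ b : Fin r, (k b : ℝ) * (k b : ℝ) with hN
  have hN0 : 0 ≤ N := Finset.sum_nonneg fun b _ => by positivity
  obtain ⟨R, hRlt⟩ := exists_nat_gt (max 1 ((4 * N + 2) / ε))
  have hR1 : (1 : ℝ) < R := lt_of_le_of_lt (le_max_left _ _) hRlt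
  have hR2 : (4 * N + 2) / ε < R := lt_of_le_of_lt (le_max_right _ _) hRlt
  have hR : 0 < R := by
    have : (0 : ℝ) < R := by linarith
    exact_mod_cast this
  have hR' : (0 : ℝ) < R := by linarith
  rw [div_lt_iff₀ hε] at hR2
  set K := XK φ R with hK
  have hK0 : 0 ≤ K := X_K_nonneg φ R
  set e1 : ℝ := min 1 (ε / 2) / (K + 1) with he1
  have he : 0 < e1 := by positivity
  have hKe : K * e1 ≤ min 1 (ε / 2) := by
    rw [he1, mul_div_assoc', div_le_iff₀ (by positivity)]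
    have : 0 < min 1 (ε / 2) := by positivity
    nlinarith
  have hch : ∀ h : A, ∃ z : Fin n → Fin M → A, 0 ≤ h →
      ∀ j j', ‖∑ i, star (z i j) * h * z i j' - (if j = j' then h else 0)‖ ≤ e1 := by
    intro h
    by_cases hh : 0 ≤ h
    · obtain ⟨z, hz⟩ := hW h hh M e1 he
      exact ⟨z, fun _ j j' => (hz j j').le⟩
    · exact ⟨fun _ _ => 0, fun h' => absurd h' hh⟩
  choose Z hZ using hch
  refine ⟨fun i j => XX φ R Z i.1 i.2 j, XY φ (Xg R), ?_, X_G_norm φ hc1 R, ?_, ?_, ?_, ?_⟩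
  · unfold XY
    exact cfcₙ_nonneg fun x _ => X_g_nonneg R x
  · intro i j
    exact X_X_norm φ h0 Z e1 hZ hc1 hR he.le (hKe.trans (min_le_left _ _)) i.1 i.2 j
  · intro j j'
    refine (X_gram φ h0 Z e1 hZ hR j j').trans_lt ?_
    refine (hKe.trans (min_le_right _ _)).trans_lt (by linarith)
  · intro y i j
    refine (X_comm_all φ h0 Z e1 hZ hc1 hR he.le (hKe.trans (min_le_left _ _)) i.1 i.2 j y).trans ?_
    refine mul_le_mul_of_nonneg_right ?_ (norm_nonneg _)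
    rw [← hN, mul_div_assoc', div_le_iff₀ hR']
    linarith
  · intro t ht hte
    obtain ⟨r, hr0, hr1, hr2⟩ := X_lower φ hc1 hR t ht hte
    refine ⟨r, hr0, hr1.trans ?_, hr2⟩
    rw [div_le_iff₀ hR']
    linarith

end Vale.Agent.P133F
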