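import Vale.Agent.P133F.BlockRC0
import Vale.Agent.P133F.BlockX
import Vale.Agent.P133F.BlockV

/-! Block RC: approximately central matrices in weakly purely infinite C*-algebras of finite nuclear
dimension. -/

namespace Vale.Agent.P133F

open scoped CStarAlgebra ComplexOrder

universe u

variable {A : Type u} [NonUnitalCStarAlgebra A] [PartialOrder A] [StarOrderedRing A]

theorem rc_of_nuclearDimension {n d : ℕ} (hW : WPI A n) (hd : NuclearDimensionLE A d) :
    RC A ((d + 1) * (2 * n)) (d + 2) (1 / (2 * (d + 1))) :=
  RC_main (fun hW _ _ φ hc h0 M ε hε => exists_X hW φ hc h0 M ε hε)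
    (fun d T ε hε => exists_cut d T ε hε) hW hd

end Vale.Agent.P133F
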