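import Vale.Agent.P133F.BlockW
import Vale.Agent.P133F.BlockRC
import Vale.Agent.P133F.BlockNORM
import Vale.Agent.P133F.BlockQ1
import Vale.Agent.P133F.BlockQ2
import Vale.Agent.P133F.BlockQ3c
import Vale.Agent.P133.Bdl.B1

/-! Assembly. -/

namespace Vale.Agent.P133F

open scoped CStarAlgebra ComplexOrder
open Vale.Agent.P133.Statement Filter Topology

universe u

section
variable {A : Type u} [NonUnitalCStarAlgebra A] [PartialOrder A] [StarOrderedRing A]

theorem elementwise_pi {d : ℕ} (hd : NuclearDimensionLE A d) (hA : WeaklyPurelyInfinite A)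
    (h : A) (h0 : 0 ≤ h) (ε : ℝ) (hε : 0 < ε) :
    ∃ x y : A, ‖star x * h * x - h‖ < ε ∧ ‖star y * h * y - h‖ < ε ∧ ‖star x * h * y‖ < ε := by
  obtain ⟨n, hW⟩ := wpi_elementwise hA
  set N := (d + 1) * (2 * n) with hN
  have hR : RCiso A N := rciso_of_rc (by positivity) (rc_of_nuclearDimension hW hd)
  obtain ⟨s, hb, h1, h2, h3, h4⟩ := exists_seq hR h (2 * (N + 1))
  obtain ⟨Q, _, S, hS, hc, ht⟩ := exists_alg h h0 s hb h1 h2 h3 h4
  obtain ⟨δ, hδ, ht⟩ := ht ε hε
  rcases Nat.eq_zero_or_pos N with hN0 | hN0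
  · -- `N = 0`: the algebra `Q` is trivial
    have h11 : (1 : Q) = 0 := by
      have h5 := hS 0 ⟨0, by omega⟩ ⟨0, by omega⟩
      rw [if_pos rfl] at h5
      rw [← h5]
      refine Finset.sum_eq_zero fun i _ => ?_
      exact absurd i.2 (by omega)
    refine ht 0 0 ?_ ?_ ?_ <;> simp [h11, hδ]
  · obtain ⟨t₁, t₂, e1, e2, e3⟩ := exists_t hN0 le_rfl S hS hc δ hδ
    exact ht t₁ t₂ e1 e2 e3

theorem main {d : ℕ} (hd : NuclearDimensionLE A d) (hA : WeaklyPurelyInfinite A) :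
    PurelyInfinite A ∧ StronglyPurelyInfinite A := by
  have hS : StronglyPurelyInfinite A := fun x y hx hy ε hε =>
    Vale.Agent.P133.main A (fun h h0 ε hε => elementwise_pi hd hA h h0 ε hε) x y hx hy ε hε
  exact ⟨pi_of_spi hS, hS⟩

end

end Vale.Agent.P133F
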