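import Vale.Agent.P133F.BlockW

namespace Vale.Agent.P133F

open Vale.Agent.P133.Statement

universe u

variable {A : Type u} [NonUnitalCStarAlgebra A] [PartialOrder A] [StarOrderedRing A]

/-- purely infinite algebras are weakly purely infinite, with `n = 1` -/
theorem wpi_of_pi (hA : PurelyInfinite A) : WeaklyPurelyInfinite A := by
  refine ⟨1, le_rfl, fun h h0 => ?_⟩
  have h1 := hA h h0
  have e1 : dsum (diagN 1 h) (diagN 1 h) = CStarMatrix.ofMatrix !![h, 0; 0, h] := by
    ext i j
    fin_cases i <;> fin_cases j <;>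
      simp [dsum, diagN, finSumFinEquiv, Fin.addCases, Matrix.fromBlocks]
  have e2 : dsum (diagN 1 h) (0 : CStarMatrix (Fin 1) (Fin 1) A) =
      CStarMatrix.ofMatrix !![h, 0; 0, 0] := by
    ext i j
    fin_cases i <;> fin_cases j <;>
      simp [dsum, diagN, finSumFinEquiv, Fin.addCases, Matrix.fromBlocks]
  rw [ProperlyInfiniteMat, e1, e2]
  exact h1

end Vale.Agent.P133F
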