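import Vale.Agent.P133F.Props

/-! Block O: completely positive maps of order zero on finite-dimensional C*-algebras satisfy
`φ x * φ y = φ 1 * φ (x * y)`. -/

namespace Vale.Agent.P133F

open scoped CStarAlgebra ComplexOrder
open Vale.Agent.P133.Statement Filter Topology

universe u

variable {A : Type u} [NonUnitalCStarAlgebra A] [PartialOrder A] [StarOrderedRing A]

theorem O_exists_sq {B : Type*} [NonUnitalCStarAlgebra B] [PartialOrder B] [StarOrderedRing B]
    (b : B) (hb : 0 ≤ b) : ∃ q, b = star q * q :=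
  CStarAlgebra.nonneg_iff_eq_star_mul_self.mp hb

/-- A positive linear map preserves the involution. -/
theorem O_map_star {B : Type*} [NonUnitalCStarAlgebra B] [PartialOrder B] [StarOrderedRing B]
    (φ : B →CP A) (x : B) : φ (star x) = star (φ x) := map_star φ x

/-- Compression of a positive `2 × 2` matrix by a column. -/
theorem O_compress (P : CStarMatrix (Fin 2) (Fin 2) A) (hP : 0 ≤ P) (z w : A) :
    0 ≤ star z * P 0 0 * z + star z * P 0 1 * w + star w * P 1 0 * z + star w * P 1 1 * w := by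
  obtain ⟨Q, hQ⟩ := O_exists_sq P hP
  have hent : ∀ i j, P i j = star (Q 0 i) * Q 0 j + star (Q 1 i) * Q 1 j := by
    intro i j
    rw [hQ, CStarMatrix.mul_apply, Fin.sum_univ_two, CStarMatrix.star_apply, CStarMatrix.star_apply]
  have key : star z * P 0 0 * z + star z * P 0 1 * w + star w * P 1 0 * z + star w * P 1 1 * w
      = star (Q 0 0 * z + Q 0 1 * w) * (Q 0 0 * z + Q 0 1 * w)
        + star (Q 1 0 * z + Q 1 1 * w) * (Q 1 0 * z + Q 1 1 * w) := by
    rw [hent 0 0, hent 0 1, hent 1 0, hent 1 1]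
    simp only [star_add, star_mul]
    noncomm_ring
  rw [key]
  exact add_nonneg (star_mul_self_nonneg _) (star_mul_self_nonneg _)

section

variable {r : ℕ} {k : Fin r → ℕ} (φ : FD k →CP A)

theorem O_star (x : FD k) : φ (star x) = star (φ x) := O_map_star φ x

theorem O_two_pos (x : FD k) (z w : A) :
    0 ≤ star z * φ 1 * z + star z * φ x * w + star w * φ (star x) * z
      + star w * φ (star x * x) * w := by
  let R : CStarMatrix (Fin 2) (Fin 2) (FD k) := CStarMatrix.ofMatrix !![1, x; 0, 0]
  have hM : 0 ≤ star R * R := star_mul_self_nonneg R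
  have hP := φ.map_cstarMatrix_nonneg (star R * R) hM
  have h := O_compress ((star R * R).map φ) hP z w
  have e00 : (star R * R) 0 0 = 1 := by
    rw [CStarMatrix.mul_apply, Fin.sum_univ_two, CStarMatrix.star_apply, CStarMatrix.star_apply]
    simp [R]
  have e01 : (star R * R) 0 1 = x := by
    rw [CStarMatrix.mul_apply, Fin.sum_univ_two, CStarMatrix.star_apply, CStarMatrix.star_apply]
    simp [R]
  have e10 : (star R * R) 1 0 = star x := by
    rw [CStarMatrix.mul_apply, Fin.sum_univ_two, CStarMatrix.star_apply, CStarMatrix.star_apply]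
    simp [R]
  have e11 : (star R * R) 1 1 = star x * x := by
    rw [CStarMatrix.mul_apply, Fin.sum_univ_two, CStarMatrix.star_apply, CStarMatrix.star_apply]
    simp [R]
  simpa only [CStarMatrix.map_apply, e00, e01, e10, e11] using h

/-- If `t L + t² K ≥ 0` for all real `t`, then `L = 0`. -/
theorem O_limit (L K : A) (h : ∀ t : ℝ, 0 ≤ (t : ℂ) • L + ((t : ℂ) * (t : ℂ)) • K) : L = 0 := by
  have hpos : ∀ L K : A, (∀ t : ℝ, 0 < t → 0 ≤ (t : ℂ) • L + ((t : ℂ) * (t : ℂ)) • K) →
      0 ≤ L := by
    intro L K h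
    have h1 : ∀ t : ℝ, 0 < t → 0 ≤ L + (t : ℂ) • K := by
      intro t ht
      have h2 := smul_nonneg (inv_nonneg.mpr ht.le) (h t ht)
      have ht' : (t : ℂ) ≠ 0 := by exact_mod_cast ht.ne'
      have h3 : (t⁻¹ : ℝ) • ((t : ℂ) • L + ((t : ℂ) * (t : ℂ)) • K) = L + (t : ℂ) • K := by
        rw [← Complex.coe_smul, smul_add, smul_smul, smul_smul, Complex.ofReal_inv,
          inv_mul_cancel₀ ht', one_smul, ← mul_assoc, inv_mul_cancel₀ ht', one_mul]
      rwa [h3] at h2
    have hcont : Continuous (fun t : ℝ => L + (t : ℂ) • K) := by fun_prop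
    have ht : Tendsto (fun t : ℝ => L + (t : ℂ) • K) (𝓝[>] 0) (𝓝 (L + ((0 : ℝ) : ℂ) • K)) :=
      (hcont.tendsto 0).mono_left nhdsWithin_le_nhds
    have h4 : (0 : A) ≤ L + ((0 : ℝ) : ℂ) • K :=
      ge_of_tendsto ht (eventually_nhdsWithin_of_forall fun t ht => h1 t ht)
    simpa using h4
  refine le_antisymm ?_ (hpos L K fun t _ => h t)
  have h5 := hpos (-L) K fun t _ => by simpa using h (-t)
  simpa using h5

/-- The matrix units of `FD k`. -/
def O_E (b : Fin r) (i j : Fin (k b)) : FD k :=
  Pi.single b (CStarMatrix.ofMatrix (Matrix.single i j (1 : ℂ)))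

theorem O_E_mul (b : Fin r) (i j i' j' : Fin (k b)) :
    (O_E b i j : FD k) * O_E b i' j' = if j = i' then O_E b i j' else 0 := by
  unfold O_E
  rw [← Pi.single_mul]
  have h : (CStarMatrix.ofMatrix (Matrix.single i j (1 : ℂ)))
      * (CStarMatrix.ofMatrix (Matrix.single i' j' (1 : ℂ)))
      = CStarMatrix.ofMatrix (Matrix.single i j (1 : ℂ) * Matrix.single i' j' (1 : ℂ)) := rfl
  split_ifs with hj
  · subst hj
    rw [h, Matrix.single_mul_single_same, one_mul]
  · rw [h, Matrix.single_mul_single_of_ne _ _ _ _ hj]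
    simp

theorem O_E_star (b : Fin r) (i j : Fin (k b)) :
    star (O_E b i j : FD k) = O_E b j i := by
  unfold O_E
  ext b' i' j'
  by_cases hb : b' = b
  · subst hb
    simp [CStarMatrix.star_apply, Matrix.single_apply, and_comm]
  · simp [hb]

theorem O_E_sum (x : FD k) : x = ∑ b, ∑ i, ∑ j, x b i j • (O_E b i j : FD k) := by
  funext b₀
  have h1 : (∑ b, ∑ i, ∑ j, x b i j • (O_E b i j : FD k)) b₀
      = ∑ b, (∑ i, ∑ j, x b i j • (O_E b i j : FD k)) b₀ := Finset.sum_apply _ _ _
  rw [h1, Finset.sum_eq_single b₀]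
  · have h2 : ∀ i j, (x b₀ i j • (O_E b₀ i j : FD k)) b₀
        = CStarMatrix.ofMatrix (Matrix.single i j (x b₀ i j)) := by
      intro i j
      rw [Pi.smul_apply, O_E, Pi.single_eq_same, CStarMatrix.smul_of, Matrix.smul_single, smul_eq_mul,
        mul_one]
    rw [Finset.sum_apply]
    simp only [Finset.sum_apply, h2]
    exact Matrix.matrix_eq_sum_single (CStarMatrix.ofMatrix.symm (x b₀))
  · intro b _ hb
    rw [Finset.sum_apply]
    refine Finset.sum_eq_zero fun i _ => ?_
    rw [Finset.sum_apply]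
    refine Finset.sum_eq_zero fun j _ => ?_
    rw [Pi.smul_apply, O_E, Pi.single_eq_of_ne hb.symm, smul_zero]
  · intro h
    exact absurd (Finset.mem_univ _) h

theorem O_proj {B : Type*} [Ring B] [Algebra ℂ B] (a b c d : B) (w w' : ℂ) (hw : w * w' = 1)
    (haa : a * a = a) (hab : a * b = b) (hac : a * c = 0) (had : a * d = 0)
    (hba : b * a = 0) (hbb : b * b = 0) (hbc : b * c = a) (hbd : b * d = b)
    (hca : c * a = c) (hcb : c * b = d) (hcc : c * c = 0) (hcd : c * d = 0)
    (hda : d * a = 0) (hdb : d * b = 0) (hdc : d * c = c) (hdd : d * d = d) :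
    ((2⁻¹ : ℂ) • (a + d + w • b + w' • c)) * ((2⁻¹ : ℂ) • (a + d + w • b + w' • c))
      = (2⁻¹ : ℂ) • (a + d + w • b + w' • c) := by
  have hw' : w' * w = 1 := by rw [mul_comm]; exact hw
  have hS : (a + d + w • b + w' • c) * (a + d + w • b + w' • c)
      = (2 : ℂ) • (a + d + w • b + w' • c) := by
    simp only [smul_mul_assoc, mul_smul_comm, add_mul, mul_add, haa, hab, hac, had, hba, hbb, hbc,
      hbd, hca, hcb, hcc, hcd, hda, hdb, hdc, hdd, smul_zero, add_zero, zero_add]
    match_scalars <;> first | ring1 | linear_combination hw'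
  rw [smul_mul_smul_comm, hS, smul_smul]
  congr 1
  norm_num

/-- Additive and homogeneous properties that hold for projections hold for all elements. -/
theorem O_induction (P : FD k → Prop) (h0 : P 0) (hadd : ∀ x y, P x → P y → P (x + y))
    (hsmul : ∀ (c : ℂ) x, P x → P (c • x)) (hproj : ∀ p, star p = p → p * p = p → P p)
    (x : FD k) : P x := by
  have hsum : ∀ {ι : Type} (s : Finset ι) (f : ι → FD k), (∀ i ∈ s, P (f i)) → P (∑ i ∈ s, f i) := by
    intro ι s f hf
    exact Finset.sum_induction f P hadd h0 hf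
  have hdiag : ∀ b i, P (O_E b i i) := by
    intro b i
    refine hproj _ (O_E_star b i i) ?_
    rw [O_E_mul, if_pos rfl]
  have hE : ∀ b i j, P (O_E b i j) := by
    intro b i j
    by_cases hij : i = j
    · subst hij; exact hdiag b i
    have hq : ∀ w : ℂ, w * star w = 1 →
        P ((2⁻¹ : ℂ) • (O_E b i i + O_E b j j + w • O_E b i j + star w • O_E b j i)) := by
      intro w hw
      refine hproj _ ?_ ?_
      · simp only [star_smul, star_add, O_E_star, star_star]
        rw [show star (2⁻¹ : ℂ) = 2⁻¹ by simp]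
        congr 1
        abel
      · have hji : ¬ j = i := fun h => hij h.symm
        exact O_proj _ _ _ _ w (star w) hw (by rw [O_E_mul, if_pos rfl])
          (by rw [O_E_mul, if_pos rfl]) (by rw [O_E_mul, if_neg hij]) (by rw [O_E_mul, if_neg hij])
          (by rw [O_E_mul, if_neg hji]) (by rw [O_E_mul, if_neg hji])
          (by rw [O_E_mul, if_pos rfl]) (by rw [O_E_mul, if_pos rfl])
          (by rw [O_E_mul, if_pos rfl]) (by rw [O_E_mul, if_pos rfl])
          (by rw [O_E_mul, if_neg hij]) (by rw [O_E_mul, if_neg hij])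
          (by rw [O_E_mul, if_neg hji]) (by rw [O_E_mul, if_neg hji])
          (by rw [O_E_mul, if_pos rfl]) (by rw [O_E_mul, if_pos rfl])
    have h1 := hq 1 (by simp)
    have hI := hq Complex.I (by simp)
    have hneg : P (-((O_E b i i : FD k) + O_E b j j)) := by
      have := hsmul (-1) _ (hadd _ _ (hdiag b i) (hdiag b j))
      rwa [neg_one_smul] at this
    -- `E i j = q 1 - I q I - (1 - I)/2 (E i i + E j j)`
    have key : (O_E b i j : FD k)
        = (2⁻¹ : ℂ) • (O_E b i i + O_E b j j + (1 : ℂ) • O_E b i j + star (1 : ℂ) • O_E b j i)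
          + (-Complex.I) • ((2⁻¹ : ℂ) • (O_E b i i + O_E b j j + Complex.I • O_E b i j
              + star Complex.I • O_E b j i))
          + ((1 - Complex.I) / 2) • (-((O_E b i i : FD k) + O_E b j j)) := by
      simp only [star_one, one_smul, smul_add, smul_smul, smul_neg, neg_add_rev,
        show star Complex.I = -Complex.I by simp]
      match_scalars <;> ring_nf <;> simp only [Complex.I_sq] <;> ring
    rw [key]
    exact hadd _ _ (hadd _ _ h1 (hsmul _ _ hI)) (hsmul _ _ hneg)
  rw [O_E_sum x]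
  exact hsum _ _ fun b _ => hsum _ _ fun i _ => hsum _ _ fun j _ => hsmul _ _ (hE b i j)

/-- `φ 1` commutes with the image of a map of order zero, and `φ p ^ 2 = φ 1 * φ p`. -/
theorem O_sq (h0 : IsOrderZero φ) (p : FD k) (hs : star p = p) (hp : p * p = p) :
    φ p * φ p = φ 1 * φ p ∧ φ p * φ p = φ p * φ 1 := by
  have hp0 : 0 ≤ p := by
    have := star_mul_self_nonneg p
    rwa [hs, hp] at this
  have hq0 : 0 ≤ 1 - p := by
    have := star_mul_self_nonneg (1 - p)
    have h2 : star (1 - p) * (1 - p) = 1 - p := by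
      rw [star_sub, star_one, hs, sub_mul, mul_sub, mul_sub, hp]
      simp
    rwa [h2] at this
  have h1 := h0 p (1 - p) hp0 hq0 (by rw [mul_sub, hp, mul_one, sub_self])
  have h2 := h0 (1 - p) p hq0 hp0 (by rw [sub_mul, hp, one_mul, sub_self])
  rw [map_sub, mul_sub, sub_eq_zero] at h1
  rw [map_sub, sub_mul, sub_eq_zero] at h2
  exact ⟨h2.symm, h1.symm⟩

theorem O_comm (h0 : IsOrderZero φ) (x : FD k) : φ 1 * φ x = φ x * φ 1 := by
  refine O_induction (fun x => φ 1 * φ x = φ x * φ 1) ?_ ?_ ?_ ?_ x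
  · simp
  · intro x y hx hy
    rw [map_add, mul_add, add_mul, hx, hy]
  · intro c x hx
    rw [map_smul, mul_smul_comm, smul_mul_assoc, hx]
  · intro p hs hp
    obtain ⟨h1, h2⟩ := O_sq φ h0 p hs hp
    exact h1.symm.trans h2

/-- The Kadison–Schwarz inequality, multiplied by `φ 1`. -/
theorem O_KS (h0 : IsOrderZero φ) (x : FD k) :
    0 ≤ φ 1 * (φ 1 * φ (star x * x) - φ (star x) * φ x) := by
  have h := O_two_pos φ x (φ x) (-(φ 1))
  have he : star (φ 1) = φ 1 := by rw [← O_star, star_one]
  have hx : star (φ x) = φ (star x) := (O_star φ x).symm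
  have c1 := O_comm φ h0 x
  have c2 := O_comm φ h0 (star x)
  have c3 := O_comm φ h0 (star x * x)
  have key : star (φ x) * φ 1 * φ x + star (φ x) * φ x * (-(φ 1))
      + star (-(φ 1)) * φ (star x) * φ x + star (-(φ 1)) * φ (star x * x) * (-(φ 1))
      = φ 1 * (φ 1 * φ (star x * x) - φ (star x) * φ x) := by
    rw [star_neg, he, hx]
    have e1 : φ (star x) * φ 1 * φ x = φ 1 * (φ (star x) * φ x) := by
      rw [← c2, mul_assoc]
    have e2 : φ (star x) * φ x * (-(φ 1)) = -(φ 1 * (φ (star x) * φ x)) := by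
      rw [mul_neg, mul_assoc, ← c1, ← mul_assoc, ← c2, mul_assoc]
    have e3 : -(φ 1) * φ (star x) * φ x = -(φ 1 * (φ (star x) * φ x)) := by
      rw [neg_mul, neg_mul, mul_assoc]
    have e4 : -(φ 1) * φ (star x * x) * (-(φ 1)) = φ 1 * (φ 1 * φ (star x * x)) := by
      rw [neg_mul, neg_mul_neg, mul_assoc, ← c3]
    rw [e1, e2, e3, e4, mul_sub]
    abel
  rwa [key] at h

/-- First half of the multiplicative domain argument. -/
theorem O_lin (h0 : IsOrderZero φ) (p : FD k) (hs : star p = p) (hp : p * p = p) (y : FD k) :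
    φ 1 * (φ 1 * φ (p * y) - φ p * φ y) + φ 1 * (φ 1 * φ (star y * p) - φ (star y) * φ p) = 0 := by
  refine O_limit _ (φ 1 * (φ 1 * φ (star y * y) - φ (star y) * φ y)) fun t => ?_
  have h := O_KS φ h0 (p + (t : ℂ) • y)
  have hst : star (p + (t : ℂ) • y) = p + (t : ℂ) • star y := by
    rw [star_add, hs, star_smul]
    simp
  have hm : (p + (t : ℂ) • star y) * (p + (t : ℂ) • y)
      = p + (t : ℂ) • (p * y) + (t : ℂ) • (star y * p) + ((t : ℂ) * (t : ℂ)) • (star y * y) := by
    rw [add_mul, mul_add, mul_add, hp, smul_mul_assoc, mul_smul_comm, smul_mul_smul_comm]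
    abel
  rw [hst, hm] at h
  simp only [map_add, map_smul] at h
  have hpp := (O_sq φ h0 p hs hp).1
  convert h using 1
  simp only [mul_add, add_mul, mul_sub, smul_mul_assoc, mul_smul_comm, smul_smul, hpp, smul_add,
    smul_sub]
  abel

/-- Multiplicative domain argument: `φ p * φ y = φ 1 * φ (p * y)` for projections `p`. -/
theorem O_proj_mul (h0 : IsOrderZero φ) (p : FD k) (hs : star p = p) (hp : p * p = p) (y : FD k) :
    φ p * φ y = φ 1 * φ (p * y) := by
  have h1 := O_lin φ h0 p hs hp y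
  have h2 := O_lin φ h0 p hs hp (Complex.I • y)
  set D : A := φ 1 * φ (p * y) - φ p * φ y with hD
  set D' : A := φ 1 * φ (star y * p) - φ (star y) * φ p with hD'
  have h3 : φ 1 * D - φ 1 * D' = 0 := by
    have e1 : star (Complex.I • y) = (-Complex.I) • star y := by
      rw [star_smul]; simp
    rw [e1] at h2
    simp only [mul_smul_comm, smul_mul_assoc, map_smul] at h2
    rw [← smul_sub, ← smul_sub, mul_smul_comm, mul_smul_comm, ← hD, ← hD', neg_smul,
      ← sub_eq_add_neg, ← smul_sub] at h2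
    exact (smul_eq_zero.mp h2).resolve_left Complex.I_ne_zero
  have h4 : φ 1 * D = 0 := by
    have : (2 : ℂ) • (φ 1 * D) = 0 := by
      rw [two_smul]
      calc φ 1 * D + φ 1 * D = (φ 1 * D + φ 1 * D') + (φ 1 * D - φ 1 * D') := by abel
        _ = 0 := by rw [h1, h3, add_zero]
    exact (smul_eq_zero.mp this).resolve_left two_ne_zero
  have hps : star (φ p) = φ p := by rw [← O_star, hs]
  have hpp := O_sq φ h0 p hs hp
  have h5 : φ p * D = 0 := by
    rw [← CStarRing.star_mul_self_eq_zero_iff, star_mul, hps, mul_assoc, ← mul_assoc (φ p) (φ p),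
      hpp.2, mul_assoc, h4, mul_zero, mul_zero]
  have h6 : D = 0 := by
    have e1 : star D = φ (star y * p) * φ 1 - φ (star y) * φ p := by
      rw [hD, star_sub, star_mul, star_mul, ← O_star, ← O_star, ← O_star, ← O_star, star_mul, hs,
        star_one]
    rw [← CStarRing.star_mul_self_eq_zero_iff, e1, sub_mul, mul_assoc, h4, mul_assoc, h5, mul_zero,
      mul_zero, sub_zero]
  exact (sub_eq_zero.mp h6).symm

end

/-- Structure of completely positive maps of order zero on finite-dimensional C*-algebras. -/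
theorem orderZero_mul {r : ℕ} {k : Fin r → ℕ} (φ : FD k →CP A) (h0 : IsOrderZero φ)
    (x y : FD k) : φ x * φ y = φ 1 * φ (x * y) := by
  refine O_induction (fun x => φ x * φ y = φ 1 * φ (x * y)) ?_ ?_ ?_ ?_ x
  · simp
  · intro x x' hx hx'
    rw [map_add, add_mul, hx, hx', add_mul, map_add, mul_add]
  · intro c x hx
    rw [map_smul, smul_mul_assoc, hx, smul_mul_assoc, map_smul, mul_smul_comm]
  · intro p hs hp
    exact O_proj_mul φ h0 p hs hp y

end Vale.Agent.P133F
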