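import Vale.Agent.P133F.Props
import Vale.Agent.P133F.BlockO
import Mathlib.Analysis.SpecialFunctions.ContinuousFunctionalCalculus.PosPart.Isometric

/-! Block RC: approximately central matrices in weakly purely infinite C*-algebras of finite nuclear
dimension. This file contains the whole argument, with the statements of blocks X and V as
hypotheses; they are discharged in `BlockRC`. -/

namespace Vale.Agent.P133F

open scoped CStarAlgebra ComplexOrder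
open Filter Topology

universe u

variable {A : Type u} [NonUnitalCStarAlgebra A] [PartialOrder A] [StarOrderedRing A]

variable (A) in
/-- The statement of block X. -/
def RC_StX : Prop :=
  ∀ {n : ℕ} (_ : WPI A n) {r : ℕ} {k : Fin r → ℕ} (φ : FD k →CP A)
    (_ : ∀ x, ‖φ x‖ ≤ ‖x‖) (_ : ∀ x y : FD k, φ x * φ y = φ 1 * φ (x * y))
    (M : ℕ) (ε : ℝ) (_ : 0 < ε),
    ∃ (X : Fin 2 × Fin n → Fin M → A) (G : A), 0 ≤ G ∧ ‖G‖ ≤ 1 ∧ (∀ i j, ‖X i j‖ ≤ 2) ∧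
      (∀ j j', ‖∑ i, star (X i j) * X i j' - (if j = j' then G else 0)‖ < ε) ∧
      (∀ (y : FD k) i j, ‖X i j * φ y - φ y * X i j‖ ≤ ε * ‖y‖) ∧
      (∀ t : A, 0 ≤ t → t ≤ φ 1 → ∃ r : A, 0 ≤ r ∧ ‖r‖ ≤ ε ∧
        t * t ≤ (2 : ℝ) • (t * G * t) + r)

variable (A) in
/-- The statement of block V. -/
def RC_StV : Prop :=
  ∀ (d : ℕ) (T : Finset A) (ε : ℝ) (_ : 0 < ε),
    ∃ (u : A) (T' : Finset A) (δ : ℝ), 0 ≤ u ∧ ‖u‖ ≤ 1 ∧ 0 < δ ∧
      (∀ a ∈ T, ‖u * a - a‖ < ε) ∧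
      ∀ V : Fin (d + 1) → (A →CP A), (∀ l x, ‖V l x‖ ≤ ‖x‖) →
        (∀ x ∈ T', ‖∑ l, V l x - x‖ < δ) →
        (∀ l, ∀ a ∈ T, ‖V l (u * u) * a - V l a‖ < ε) ∧
        (∀ l, ∀ a ∈ T, ‖a * V l (u * u) - V l a‖ < ε) ∧
        ‖∑ l, V l (u * u) - u * u‖ < ε

/-- The composition of two completely positive maps. -/
noncomputable def RC_comp {B : Type*} [NonUnitalCStarAlgebra B] [PartialOrder B]
    [StarOrderedRing B] (φ : B →CP A) (ψ : A →CP B) : A →CP A :=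
  { (φ : B →ₗ[ℂ] A).comp (ψ : A →ₗ[ℂ] B) with
    map_cstarMatrix_nonneg' := fun _ M hM =>
      φ.map_cstarMatrix_nonneg (M.map ψ) (ψ.map_cstarMatrix_nonneg M hM) }

theorem RC_comp_apply {B : Type*} [NonUnitalCStarAlgebra B] [PartialOrder B]
    [StarOrderedRing B] (φ : B →CP A) (ψ : A →CP B) (x : A) : RC_comp φ ψ x = φ (ψ x) := rfl

/-- A self-adjoint element is dominated by a positive one of no larger norm. -/
theorem RC_dominate (x : A) (hx : IsSelfAdjoint x) : ∃ s : A, 0 ≤ s ∧ ‖s‖ ≤ ‖x‖ ∧ x ≤ s :=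
  ⟨x⁺, CFC.posPart_nonneg x, CStarAlgebra.norm_posPart_le x, CFC.le_posPart hx⟩

/-- Operator Cauchy-Schwarz inequality. -/
theorem RC_cs {m : ℕ} (h : Fin m → A) (hh : ∀ l, IsSelfAdjoint (h l)) :
    (∑ l, h l) * (∑ l, h l) ≤ (m : ℝ) • ∑ l, h l * h l := by
  have h1 : ∀ l l', h l * h l' + h l' * h l ≤ h l * h l + h l' * h l' := by
    intro l l'
    have h2 : 0 ≤ star (h l - h l') * (h l - h l') := star_mul_self_nonneg _
    have h3 : star (h l - h l') = h l - h l' := ((hh l).sub (hh l')).star_eq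
    rw [h3] at h2
    have h4 : (h l - h l') * (h l - h l')
        = (h l * h l + h l' * h l') - (h l * h l' + h l' * h l) := by
      noncomm_ring
    rw [h4] at h2
    exact sub_nonneg.mp h2
  have h5 : ∑ l, ∑ l', (h l * h l' + h l' * h l) ≤ ∑ l, ∑ l', (h l * h l + h l' * h l') :=
    Finset.sum_le_sum fun l _ => Finset.sum_le_sum fun l' _ => h1 l l'
  have h6 : ∑ l, ∑ l', (h l * h l' + h l' * h l) = (2 : ℝ) • ((∑ l, h l) * (∑ l, h l)) := by
    simp only [Finset.sum_add_distrib, two_smul]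
    congr 1
    · rw [Finset.sum_mul_sum]
    · rw [Finset.sum_mul_sum, Finset.sum_comm]
  have h7 : ∑ l, ∑ l', (h l * h l + h l' * h l') = (2 : ℝ) • ((m : ℝ) • ∑ l, h l * h l) := by
    simp only [Finset.sum_add_distrib, two_smul, Finset.sum_const, Finset.card_univ,
      Fintype.card_fin, ← Finset.smul_sum, Nat.cast_smul_eq_nsmul]
  rw [h6, h7] at h5
  have h8 := smul_le_smul_of_nonneg_left h5 (by norm_num : (0 : ℝ) ≤ 1 / 2)
  rw [smul_smul, smul_smul] at h8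
  norm_num at h8
  simpa using h8

omit [PartialOrder A] [StarOrderedRing A] in
theorem RC_gram1 (h X X' : A) (hh : IsSelfAdjoint h) (hn : ‖h‖ ≤ 1) (hX : ‖X‖ ≤ 2)
    (hX' : ‖X'‖ ≤ 2) (ε : ℝ) (hε : 0 ≤ ε) (c1 : ‖X * h - h * X‖ ≤ ε)
    (c2 : ‖X' * h - h * X'‖ ≤ ε) :
    ‖star (h * X) * (h * X') - h * (star X * X') * h‖ ≤ 4 * ε := by
  have e1 : star (h * X) * (h * X') - h * (star X * X') * h
      = star (X * h - h * X) * (-(h * X')) + (-(h * star X)) * (X' * h - h * X') := by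
    rw [star_sub, star_mul, star_mul, hh.star_eq]
    noncomm_ring
  rw [e1]
  refine (norm_add_le _ _).trans ?_
  have b1 : ‖star (X * h - h * X) * (-(h * X'))‖ ≤ ε * (1 * 2) := by
    refine (norm_mul_le _ _).trans ?_
    rw [norm_star, norm_neg]
    exact mul_le_mul c1 ((norm_mul_le _ _).trans (mul_le_mul hn hX' (norm_nonneg _) zero_le_one))
      (norm_nonneg _) hε
  have b2 : ‖(-(h * star X)) * (X' * h - h * X')‖ ≤ (1 * 2) * ε := by
    refine (norm_mul_le _ _).trans ?_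
    rw [norm_neg]
    refine mul_le_mul ((norm_mul_le _ _).trans ?_) c2 (norm_nonneg _) (by norm_num)
    rw [norm_star]
    exact mul_le_mul hn hX (norm_nonneg _) zero_le_one
  linarith

omit [PartialOrder A] [StarOrderedRing A] in
/-- The commutator of `h * X` with `a`, where `h = φ y`, `v = φ w` and `v ≈ h a ≈ a h`. -/
theorem RC_comm1 (h X a v : A) (hX : ‖X‖ ≤ 2) (C ε₁ ε₂ : ℝ) (hC : ‖a‖ ≤ C) (hε₁ : 0 ≤ ε₁)
    (hε₂ : 0 ≤ ε₂)
    (c1 : ‖h * a - v‖ ≤ ε₁) (c2 : ‖a * h - v‖ ≤ ε₁) (c3 : ‖X * h - h * X‖ ≤ ε₂)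
    (c4 : ‖X * v - v * X‖ ≤ ε₂ * C) :
    ‖(h * X) * a - a * (h * X)‖ ≤ 4 * ε₁ + 2 * (ε₂ * C) := by
  have e1 : (h * X) * a - a * (h * X) = -((X * h - h * X) * a) + X * (h * a - v)
      + (X * v - v * X) - (a * h - v) * X := by
    noncomm_ring
  rw [e1]
  refine (norm_sub_le _ _).trans ?_
  have b1 : ‖(X * h - h * X) * a‖ ≤ ε₂ * C :=
    (norm_mul_le _ _).trans (mul_le_mul c3 hC (norm_nonneg _) hε₂)
  have b2 : ‖X * (h * a - v)‖ ≤ 2 * ε₁ :=
    (norm_mul_le _ _).trans (mul_le_mul hX c1 (norm_nonneg _) (by norm_num))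
  have b3 : ‖(a * h - v) * X‖ ≤ ε₁ * 2 :=
    (norm_mul_le _ _).trans (mul_le_mul c2 hX (norm_nonneg _) hε₁)
  have b4 := norm_add_le (-((X * h - h * X) * a) + X * (h * a - v)) (X * v - v * X)
  have b5 := norm_add_le (-((X * h - h * X) * a)) (X * (h * a - v))
  rw [norm_neg] at b5
  linarith


/-- A positive contraction of a finite-dimensional C*-algebra is at most `1`. -/
theorem RC_le_one {r : ℕ} {k : Fin r → ℕ} (y : FD k) (hy : 0 ≤ y) (hn : ‖y‖ ≤ 1) : y ≤ 1 := by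
  exact (CStarAlgebra.norm_le_one_iff_of_nonneg y hy).mp hn

/-- The data attached to one colour. -/
theorem RC_colour (exists_X : RC_StX A) {n : ℕ} (hW : WPI A n) {r : ℕ} {k : Fin r → ℕ} (φ : FD k →CP A)
    (ψ : A →CP FD k) (hψ : ∀ x, ‖ψ x‖ ≤ ‖x‖)
    (hφ : ∀ x, ‖φ x‖ ≤ ‖x‖) (h0 : IsOrderZero φ) (u : A) (hu : 0 ≤ u) (hu1 : ‖u‖ ≤ 1)
    (M : ℕ) (T : Finset A) (C ε₁ ε₂ : ℝ) (hC : ∀ a ∈ T, ‖a‖ ≤ C)
    (hε₁ : 0 < ε₁) (hε₂ : 0 < ε₂)
    (c1 : ∀ a ∈ T, ‖φ (ψ (u * u)) * a - φ (ψ a)‖ < ε₁)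
    (c2 : ∀ a ∈ T, ‖a * φ (ψ (u * u)) - φ (ψ a)‖ < ε₁) :
    ∃ (Y : Fin 2 × Fin n → Fin M → A) (G R : A), 0 ≤ G ∧ ‖G‖ ≤ 1 ∧ 0 ≤ R ∧ ‖R‖ ≤ ε₂ ∧
      (∀ a ∈ T, ∀ i j, ‖Y i j * a - a * Y i j‖ ≤ 4 * ε₁ + 2 * (ε₂ * C)) ∧
      (∀ j j', ‖∑ i, star (Y i j) * Y i j'
        - (if j = j' then φ (ψ (u * u)) * G * φ (ψ (u * u)) else 0)‖ ≤ (8 * n + 1) * ε₂) ∧
      φ (ψ (u * u)) * φ (ψ (u * u)) ≤ (2 : ℝ) • (φ (ψ (u * u)) * G * φ (ψ (u * u))) + R := by
  have huu : 0 ≤ u * u := by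
    have := star_mul_self_nonneg u
    rwa [(IsSelfAdjoint.of_nonneg hu).star_eq] at this
  have huu1 : ‖u * u‖ ≤ 1 :=
    (norm_mul_le _ _).trans (mul_le_one₀ hu1 (norm_nonneg _) hu1)
  have hy0 : 0 ≤ ψ (u * u) := map_nonneg ψ huu
  have hy1 : ‖ψ (u * u)‖ ≤ 1 := (hψ _).trans huu1
  have hyle : ψ (u * u) ≤ 1 := RC_le_one _ hy0 hy1
  set y := ψ (u * u) with hy
  have hh0 : 0 ≤ φ y := map_nonneg φ hy0
  have hh1 : ‖φ y‖ ≤ 1 := (hφ _).trans hy1
  have hhle : φ y ≤ φ 1 := OrderHomClass.mono φ hyle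
  obtain ⟨X, G, hG0, hG1, hX, hXX, hXc, hXt⟩ :=
    exists_X hW φ hφ (fun x y => orderZero_mul φ h0 x y) M ε₂ hε₂
  obtain ⟨R, hR0, hR1, hR⟩ := hXt (φ y) hh0 hhle
  have hcomm : ∀ i j, ‖X i j * φ y - φ y * X i j‖ ≤ ε₂ := by
    intro i j
    refine (hXc y i j).trans ?_
    exact mul_le_of_le_one_right hε₂.le hy1
  have hsa : IsSelfAdjoint (φ y) := IsSelfAdjoint.of_nonneg hh0
  refine ⟨fun i j => φ y * X i j, G, R, hG0, hG1, hR0, hR1, ?_, ?_, hR⟩
  · intro a ha i j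
    refine RC_comm1 (φ y) (X i j) a (φ (ψ a)) (hX i j) C ε₁ ε₂ (hC a ha) hε₁.le hε₂.le
      (c1 a ha).le (c2 a ha).le (hcomm i j) ?_
    refine (hXc (ψ a) i j).trans ?_
    exact mul_le_mul_of_nonneg_left ((hψ a).trans (hC a ha)) hε₂.le
  · intro j j'
    have e1 : ∑ i, star (φ y * X i j) * (φ y * X i j') -
        (if j = j' then φ y * G * φ y else 0)
        = ∑ i, (star (φ y * X i j) * (φ y * X i j') - φ y * (star (X i j) * X i j') * φ y)
          + φ y * (∑ i, star (X i j) * X i j' - (if j = j' then G else 0)) * φ y := by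
      rw [Finset.sum_sub_distrib, mul_sub, sub_mul, Finset.mul_sum, Finset.sum_mul]
      by_cases hj : j = j'
      · simp only [hj, if_true]; abel
      · simp only [hj, if_false, mul_zero, zero_mul]; abel
    rw [e1]
    refine (norm_add_le _ _).trans ?_
    have b1 : ‖∑ i, (star (φ y * X i j) * (φ y * X i j') - φ y * (star (X i j) * X i j') * φ y)‖
        ≤ (2 * n) * (4 * ε₂) := by
      refine (norm_sum_le _ _).trans ?_
      refine (Finset.sum_le_sum fun i _ => RC_gram1 (φ y) (X i j) (X i j') hsa hh1 (hX i j)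
        (hX i j') ε₂ hε₂.le (hcomm i j) (hcomm i j')).trans ?_
      rw [Finset.sum_const, Finset.card_univ, Fintype.card_prod, Fintype.card_fin,
        Fintype.card_fin, nsmul_eq_mul]
      push_cast
      exact le_rfl
    have b2 : ‖φ y * (∑ i, star (X i j) * X i j' - (if j = j' then G else 0)) * φ y‖ ≤ ε₂ := by
      refine (norm_mul_le _ _).trans ?_
      have b3 : ‖φ y * (∑ i, star (X i j) * X i j' - (if j = j' then G else 0))‖ ≤ 1 * ε₂ :=
        (norm_mul_le _ _).trans (mul_le_mul hh1 (hXX j j').le (norm_nonneg _) zero_le_one)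
      calc _ ≤ (1 * ε₂) * 1 := mul_le_mul b3 hh1 (norm_nonneg _) (by positivity)
        _ = ε₂ := by ring
    linarith

/-- The lower bound for the sum of all colours. -/
theorem RC_lower {d : ℕ} (w : A) (hw : IsSelfAdjoint w) (hw1 : ‖w‖ ≤ 1) (h g R : Fin (d + 1) → A)
    (hh : ∀ l, IsSelfAdjoint (h l)) (ε₁ : ℝ) (hε₁ : 0 < ε₁) (hε₁' : ε₁ ≤ 1)
    (hsum : ‖∑ l, h l - w‖ < ε₁)
    (hR : ∀ l, h l * h l ≤ (2 : ℝ) • g l + R l) :
    ∃ s : A, 0 ≤ s ∧ ‖s‖ ≤ 3 * ε₁ ∧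
      (1 / (2 * ((d : ℝ) + 1))) • (w * w) ≤
        ∑ l, g l + ((1 / 2 : ℝ) • ∑ l, R l + (1 / (2 * ((d : ℝ) + 1))) • s) := by
  have hH : IsSelfAdjoint (∑ l, h l) := by
    unfold IsSelfAdjoint
    rw [star_sum]
    exact Finset.sum_congr rfl fun l _ => (hh l).star_eq
  set H := ∑ l, h l with hHdef
  have hsa : IsSelfAdjoint (w * w - H * H) := by
    unfold IsSelfAdjoint
    rw [star_sub, star_mul, star_mul, hw.star_eq, hH.star_eq]
  obtain ⟨s, hs0, hs1, hs⟩ := RC_dominate _ hsa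
  have hHn : ‖H‖ ≤ 2 := by
    have := norm_add_le (H - w) w
    rw [sub_add_cancel] at this
    linarith
  have hn : ‖w * w - H * H‖ ≤ 3 * ε₁ := by
    have e1 : w * w - H * H = -((H - w) * w) - H * (H - w) := by noncomm_ring
    rw [e1]
    refine (norm_sub_le _ _).trans ?_
    rw [norm_neg]
    have b1 : ‖(H - w) * w‖ ≤ ε₁ * 1 :=
      (norm_mul_le _ _).trans (mul_le_mul hsum.le hw1 (norm_nonneg _) hε₁.le)
    have b2 : ‖H * (H - w)‖ ≤ 2 * ε₁ :=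
      (norm_mul_le _ _).trans (mul_le_mul hHn hsum.le (norm_nonneg _) (by norm_num))
    linarith
  refine ⟨s, hs0, hs1.trans hn, ?_⟩
  have h1 : w * w ≤ H * H + s := by
    have := add_le_add_right hs (H * H)
    rwa [add_sub_cancel] at this
  have h2 : H * H ≤ (((d + 1 : ℕ) : ℝ)) • ∑ l, h l * h l := RC_cs h hh
  have h3 : ∑ l, h l * h l ≤ (2 : ℝ) • ∑ l, g l + ∑ l, R l := by
    refine (Finset.sum_le_sum fun l _ => hR l).trans (le_of_eq ?_)
    rw [Finset.sum_add_distrib, ← Finset.smul_sum]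
  have hD : (0 : ℝ) ≤ ((d + 1 : ℕ) : ℝ) := by positivity
  have h4 : w * w ≤ (((d + 1 : ℕ) : ℝ)) • ((2 : ℝ) • ∑ l, g l + ∑ l, R l) + s :=
    h1.trans (add_le_add_left (h2.trans (smul_le_smul_of_nonneg_left h3 hD)) s)
  have hc : (0 : ℝ) ≤ 1 / (2 * ((d : ℝ) + 1)) := by positivity
  refine (smul_le_smul_of_nonneg_left h4 hc).trans (le_of_eq ?_)
  have hd1 : ((d : ℝ) + 1) ≠ 0 := by positivity
  rw [smul_add, smul_smul, smul_add, smul_smul]
  have e2 : 1 / (2 * ((d : ℝ) + 1)) * ((d + 1 : ℕ) : ℝ) = 1 / 2 := by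
    push_cast
    field_simp
  rw [e2]
  norm_num
  rw [add_assoc]

theorem RC_main (exists_X : RC_StX A) (exists_cut : RC_StV A) {n d : ℕ} (hW : WPI A n) (hd : NuclearDimensionLE A d) :
    RC A ((d + 1) * (2 * n)) (d + 2) (1 / (2 * (d + 1))) := by
  classical
  intro M T ε hε
  obtain ⟨C, hC1, hC⟩ : ∃ C : ℝ, 1 ≤ C ∧ ∀ a ∈ T, ‖a‖ ≤ C := by
    refine ⟨1 + ∑ a ∈ T, ‖a‖, ?_, ?_⟩
    · have : 0 ≤ ∑ a ∈ T, ‖a‖ := Finset.sum_nonneg fun a _ => norm_nonneg a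
      linarith
    · intro a ha
      have : ‖a‖ ≤ ∑ a ∈ T, ‖a‖ :=
        Finset.single_le_sum (f := fun a : A => ‖a‖) (fun a _ => norm_nonneg a) ha
      linarith
  obtain ⟨m, hm0, hm1, hmε⟩ : ∃ m : ℝ, 0 < m ∧ m ≤ 1 ∧ m ≤ ε :=
    ⟨min 1 ε, lt_min one_pos hε, min_le_left _ _, min_le_right _ _⟩
  -- tolerances
  obtain ⟨ε₁, hε₁, hε₁'⟩ : ∃ ε₁ : ℝ, 0 < ε₁ ∧ 16 * ε₁ = m := ⟨m / 16, by positivity, by ring⟩
  have hDn : (0 : ℝ) < 16 * C * ((d : ℝ) + 1) * (8 * n + 1) := by positivity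
  obtain ⟨ε₂, hε₂, hε₂'⟩ : ∃ ε₂ : ℝ, 0 < ε₂ ∧
      16 * C * ((d : ℝ) + 1) * (8 * n + 1) * ε₂ = m :=
    ⟨m / (16 * C * ((d : ℝ) + 1) * (8 * n + 1)), by positivity, by field_simp⟩
  have hd0 : (0 : ℝ) ≤ d := Nat.cast_nonneg d
  have hn0 : (0 : ℝ) ≤ n := Nat.cast_nonneg n
  have k1 : ε₂ * C ≤ m / 16 := by
    have : 16 * (ε₂ * C) * 1 ≤ 16 * (ε₂ * C) * (((d : ℝ) + 1) * (8 * n + 1)) := by
      refine mul_le_mul_of_nonneg_left ?_ (by positivity)
      nlinarith [mul_nonneg hd0 hn0]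
    nlinarith
  have k2 : ((d : ℝ) + 1) * ((8 * n + 1) * ε₂) ≤ m / 16 := by
    have : 16 * (((d : ℝ) + 1) * ((8 * n + 1) * ε₂)) * 1
        ≤ 16 * (((d : ℝ) + 1) * ((8 * n + 1) * ε₂)) * C :=
      mul_le_mul_of_nonneg_left hC1 (by positivity)
    nlinarith
  have k3 : ((d : ℝ) + 1) * ε₂ ≤ m / 16 := by
    refine le_trans (mul_le_mul_of_nonneg_left ?_ (by positivity)) k2
    nlinarith [mul_nonneg hn0 hε₂.le]
  obtain ⟨u, T', δ, hu, hu1, hδ, hT, hV⟩ := exists_cut d T ε₁ hε₁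
  obtain ⟨r, k, ψ, φ, hψ, hφ, h0, happ⟩ := hd T' δ hδ
  obtain ⟨hV1, hV2, hV3⟩ := hV (fun l => RC_comp (φ l) (ψ l))
    (fun l x => by
      rw [RC_comp_apply]
      exact (hφ l _).trans (hψ l x))
    (fun x hx => by
      simp only [RC_comp_apply]
      exact happ x hx)
  simp only [RC_comp_apply] at hV1 hV2 hV3
  have hcol := fun l => RC_colour exists_X hW (φ l) (ψ l) (hψ l) (hφ l) (h0 l) u hu hu1 M T C ε₁ ε₂ hC
    hε₁ hε₂ (hV1 l) (hV2 l)
  choose Y G R hG0 hG1 hR0 hR1 hYc hYg hRl using hcol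
  have huu : 0 ≤ u * u := by
    have := star_mul_self_nonneg u
    rwa [(IsSelfAdjoint.of_nonneg hu).star_eq] at this
  have huu1 : ‖u * u‖ ≤ 1 :=
    (norm_mul_le _ _).trans (mul_le_one₀ hu1 (norm_nonneg _) hu1)
  have hh0 : ∀ l, 0 ≤ φ l (ψ l (u * u)) := fun l => map_nonneg (φ l) (map_nonneg (ψ l) huu)
  have hh1 : ∀ l, ‖φ l (ψ l (u * u))‖ ≤ 1 := fun l =>
    (hφ l _).trans ((hψ l _).trans huu1)
  set h : Fin (d + 1) → A := fun l => φ l (ψ l (u * u)) with hh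
  obtain ⟨s, hs0, hs1, hs⟩ := RC_lower (u * u) (IsSelfAdjoint.of_nonneg huu) huu1 h
    (fun l => h l * G l * h l) R (fun l => IsSelfAdjoint.of_nonneg (hh0 l)) ε₁ hε₁ (by linarith)
    hV3 hRl
  -- the correction term
  set q : A := (1 / 2 : ℝ) • ∑ l, R l + (1 / (2 * ((d : ℝ) + 1))) • s with hq
  have hq0 : 0 ≤ q := by
    refine add_nonneg (smul_nonneg (by norm_num) (Finset.sum_nonneg fun l _ => hR0 l))
      (smul_nonneg (by positivity) hs0)
  have hqn : ‖q‖ ≤ m / 4 := by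
    refine (norm_add_le _ _).trans ?_
    have b1 : ‖(1 / 2 : ℝ) • ∑ l, R l‖ ≤ 1 / 2 * (((d : ℝ) + 1) * ε₂) := by
      rw [norm_smul, Real.norm_of_nonneg (by norm_num : (0 : ℝ) ≤ 1 / 2)]
      refine mul_le_mul_of_nonneg_left ?_ (by norm_num)
      refine (norm_sum_le _ _).trans ((Finset.sum_le_sum fun l _ => hR1 l).trans ?_)
      rw [Finset.sum_const, Finset.card_univ, Fintype.card_fin, nsmul_eq_mul]
      push_cast
      exact le_rfl
    have b2 : ‖(1 / (2 * ((d : ℝ) + 1))) • s‖ ≤ 1 / 2 * (3 * ε₁) := by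
      rw [norm_smul, Real.norm_of_nonneg (by positivity : (0 : ℝ) ≤ 1 / (2 * ((d : ℝ) + 1)))]
      refine mul_le_mul ?_ hs1 (norm_nonneg _) (by norm_num)
      rw [div_le_div_iff₀ (by positivity) (by norm_num)]
      linarith
    linarith
  have hg0 : 0 ≤ ∑ l, h l * G l * h l := by
    refine Finset.sum_nonneg fun l _ => ?_
    have := star_left_conjugate_nonneg (hG0 l) (h l)
    rwa [(IsSelfAdjoint.of_nonneg (hh0 l)).star_eq] at this
  have hg0n : ‖∑ l, h l * G l * h l‖ ≤ (d : ℝ) + 1 := by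
    refine (norm_sum_le _ _).trans ?_
    have b1 : ∀ l, ‖h l * G l * h l‖ ≤ 1 := fun l =>
      (norm_mul_le _ _).trans (mul_le_one₀ ((norm_mul_le _ _).trans
        (mul_le_one₀ (hh1 l) (norm_nonneg _) (hG1 l))) (norm_nonneg _) (hh1 l))
    refine (Finset.sum_le_sum fun l _ => b1 l).trans ?_
    rw [Finset.sum_const, Finset.card_univ, Fintype.card_fin, nsmul_eq_mul, mul_one]
    push_cast
    exact le_rfl
  let e : Fin (d + 1) × (Fin 2 × Fin n) ≃ Fin ((d + 1) * (2 * n)) :=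
    (Equiv.prodCongr (Equiv.refl _) finProdFinEquiv).trans finProdFinEquiv
  refine ⟨fun i j => Y (e.symm i).1 (e.symm i).2 j, ∑ l, h l * G l * h l + q, u,
    add_nonneg hg0 hq0, ?_, hu, hu1, ?_, ?_, ?_, ?_⟩
  · refine (norm_add_le _ _).trans ?_
    linarith
  · exact hs
  · intro a ha
    exact (hT a ha).trans (by linarith)
  · intro a ha i j
    refine (hYc _ a ha _ _).trans_lt ?_
    linarith
  · intro j j'
    have e1 : ∑ i, star (Y (e.symm i).1 (e.symm i).2 j) * Y (e.symm i).1 (e.symm i).2 j'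
        = ∑ l, ∑ i, star (Y l i j) * Y l i j' := by
      rw [← Fintype.sum_prod_type' (f := fun l i => star (Y l i j) * Y l i j')]
      exact Equiv.sum_comp e.symm (fun p => star (Y p.1 p.2 j) * Y p.1 p.2 j')
    rw [e1]
    have e2 : ∑ l, ∑ i, star (Y l i j) * Y l i j'
        - (if j = j' then ∑ l, h l * G l * h l + q else 0)
        = ∑ l, (∑ i, star (Y l i j) * Y l i j' - (if j = j' then h l * G l * h l else 0))
          - (if j = j' then q else 0) := by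
      rw [Finset.sum_sub_distrib]
      by_cases hj : j = j'
      · simp only [hj, if_true]; abel
      · simp only [hj, if_false, Finset.sum_const_zero, sub_zero]
    rw [e2]
    refine (norm_sub_le _ _).trans_lt ?_
    have b1 : ‖∑ l, (∑ i, star (Y l i j) * Y l i j' - (if j = j' then h l * G l * h l else 0))‖
        ≤ ((d : ℝ) + 1) * ((8 * n + 1) * ε₂) := by
      refine (norm_sum_le _ _).trans ((Finset.sum_le_sum fun l _ => hYg l j j').trans ?_)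
      rw [Finset.sum_const, Finset.card_univ, Fintype.card_fin, nsmul_eq_mul]
      push_cast
      exact le_rfl
    have b2 : ‖(if j = j' then q else 0 : A)‖ ≤ m / 4 := by
      by_cases hj : j = j'
      · simp only [hj, if_true]; exact hqn
      · simp only [hj, if_false, norm_zero]; positivity
    linarith

end Vale.Agent.P133F
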