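import Vale.Agent.P133F.Props

/-! Block W: weak pure infiniteness in elementwise form. -/

namespace Vale.Agent.P133F

open scoped CStarAlgebra ComplexOrder
open Vale.Agent.P133.Statement Filter Topology

universe u

variable {A : Type u} [NonUnitalCStarAlgebra A] [PartialOrder A] [StarOrderedRing A]

section WPart

theorem W_pad_apply {k : ℕ} (n : ℕ) (M : CStarMatrix (Fin k) (Fin k) A) (i j : Fin (k + n)) :
    pad n M i j = if h : (i : ℕ) < k ∧ (j : ℕ) < k then M ⟨i, h.1⟩ ⟨j, h.2⟩ else 0 := rfl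

/-- entries of `dsum` -/
theorem W_dsum_apply {k l : ℕ} (u : CStarMatrix (Fin k) (Fin k) A)
    (v : CStarMatrix (Fin l) (Fin l) A) (i j : Fin (k + l)) :
    dsum u v i j = Matrix.fromBlocks (CStarMatrix.ofMatrix.symm u) 0 0
      (CStarMatrix.ofMatrix.symm v) (finSumFinEquiv.symm i) (finSumFinEquiv.symm j) := rfl

theorem W_diagN_apply (n : ℕ) (h : A) (i j : Fin n) : diagN n h i j = if i = j then h else 0 := by
  change Matrix.diagonal (fun _ => h) i j = _
  rw [Matrix.diagonal_apply]

/-- entries of `diag (h, ..., h, 0, ..., 0)` -/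
theorem W_dsum_zero (n : ℕ) (h : A) (i j : Fin (n + n)) :
    dsum (diagN n h) (0 : CStarMatrix (Fin n) (Fin n) A) i j =
      if i = j ∧ (i : ℕ) < n then h else 0 := by
  rw [W_dsum_apply]
  obtain ⟨a, rfl⟩ := finSumFinEquiv.surjective i
  obtain ⟨b, rfl⟩ := finSumFinEquiv.surjective j
  rw [Equiv.symm_apply_apply, Equiv.symm_apply_apply]
  rcases a with a | a <;> rcases b with b | b
  · rw [Matrix.fromBlocks_apply₁₁]
    change diagN n h a b = _
    rw [W_diagN_apply]
    have : (finSumFinEquiv (Sum.inl a : Fin n ⊕ Fin n) = finSumFinEquiv (Sum.inl b) ∧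
        ((finSumFinEquiv (Sum.inl a : Fin n ⊕ Fin n) : Fin (n + n)) : ℕ) < n) ↔ a = b := by
      rw [finSumFinEquiv.apply_eq_iff_eq]
      simp
    rw [if_congr this rfl rfl]
  · rw [Matrix.fromBlocks_apply₁₂, if_neg]
    · rfl
    · rintro ⟨h1, -⟩
      have := finSumFinEquiv.injective h1
      simp at this
  · rw [Matrix.fromBlocks_apply₂₁, if_neg]
    · rfl
    · rintro ⟨h1, -⟩
      have := finSumFinEquiv.injective h1
      simp at this
  · rw [Matrix.fromBlocks_apply₂₂, if_neg]
    · rfl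
    · rintro ⟨-, h2⟩
      simp at h2

theorem W_dsum_self (n : ℕ) (h : A) (i j : Fin (n + n)) :
    dsum (diagN n h) (diagN n h) i j = if i = j then h else 0 := by
  rw [W_dsum_apply]
  obtain ⟨a, rfl⟩ := finSumFinEquiv.surjective i
  obtain ⟨b, rfl⟩ := finSumFinEquiv.surjective j
  rw [Equiv.symm_apply_apply, Equiv.symm_apply_apply]
  rcases a with a | a <;> rcases b with b | b
  · rw [Matrix.fromBlocks_apply₁₁]
    change diagN n h a b = _
    rw [W_diagN_apply]
    have : (finSumFinEquiv (Sum.inl a : Fin n ⊕ Fin n) = finSumFinEquiv (Sum.inl b)) ↔ a = b := by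
      rw [finSumFinEquiv.apply_eq_iff_eq]
      simp
    rw [if_congr this rfl rfl]
  · rw [Matrix.fromBlocks_apply₁₂, if_neg]
    · rfl
    · intro h1
      have := finSumFinEquiv.injective h1
      simp at this
  · rw [Matrix.fromBlocks_apply₂₁, if_neg]
    · rfl
    · intro h1
      have := finSumFinEquiv.injective h1
      simp at this
  · rw [Matrix.fromBlocks_apply₂₂]
    change diagN n h a b = _
    rw [W_diagN_apply]
    have : (finSumFinEquiv (Sum.inr a : Fin n ⊕ Fin n) = finSumFinEquiv (Sum.inr b)) ↔ a = b := by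
      rw [finSumFinEquiv.apply_eq_iff_eq]
      simp
    rw [if_congr this rfl rfl]

/-- the elementwise statement for one `h` and an index type `ι` -/
def WQ (n : ℕ) (h : A) (ι : Type) [DecidableEq ι] : Prop :=
  ∀ ε : ℝ, 0 < ε → ∃ z : Fin n → ι → A,
    ∀ j j', ‖∑ i, star (z i j) * h * z i j' - (if j = j' then h else 0)‖ < ε

theorem WQ.of_injective {n : ℕ} {h : A} {ι ι' : Type} [DecidableEq ι] [DecidableEq ι']
    (H : WQ n h ι) (g : ι' → ι) (hg : Function.Injective g) : WQ n h ι' := by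
  intro ε hε
  obtain ⟨z, hz⟩ := H ε hε
  refine ⟨fun i j => z i (g j), fun j j' => ?_⟩
  have := hz (g j) (g j')
  rwa [if_congr hg.eq_iff rfl rfl] at this

theorem WQ_start {n : ℕ} {h : A} (H : ProperlyInfiniteMat (diagN n h)) : WQ n h (Fin (n + n)) := by
  intro ε hε
  obtain ⟨k, X, hX⟩ := H ε hε
  set V := pad k (dsum (diagN n h) (0 : CStarMatrix (Fin n) (Fin n) A)) with hV
  set U := pad k (dsum (diagN n h) (diagN n h)) with hU
  have hVe : ∀ i j : Fin (n + n + k), V i j = if i = j ∧ (i : ℕ) < n then h else 0 := by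
    intro i j
    rw [hV, W_pad_apply]
    by_cases hij : (i : ℕ) < n + n ∧ (j : ℕ) < n + n
    · rw [dif_pos hij, W_dsum_zero]
      have : ((⟨i, hij.1⟩ : Fin (n + n)) = ⟨j, hij.2⟩ ∧
          ((⟨i, hij.1⟩ : Fin (n + n)) : ℕ) < n) ↔ (i = j ∧ (i : ℕ) < n) := by
        simp [Fin.ext_iff]
      rw [if_congr this rfl rfl]
    · rw [dif_neg hij, if_neg]
      rintro ⟨rfl, h2⟩
      exact hij ⟨by omega, by omega⟩
  -- embedding of `Fin n`
  let em : Fin n → Fin (n + n + k) := fun a => ⟨a, by omega⟩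
  have hem : Function.Injective em := fun a b hab => by
    simp only [em, Fin.mk.injEq] at hab
    exact Fin.ext hab
  have key : ∀ i j : Fin (n + n + k), (star X * V * X) i j =
      ∑ a : Fin n, star (X (em a) i) * h * X (em a) j := by
    intro i j
    rw [CStarMatrix.mul_apply]
    have h1 : ∀ b : Fin (n + n + k), (star X * V) i b * X b j =
        if (b : ℕ) < n then star (X b i) * h * X b j else 0 := by
      intro b
      rw [CStarMatrix.mul_apply, Finset.sum_eq_single b]
      · rw [hVe, CStarMatrix.star_apply]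
        by_cases hb : (b : ℕ) < n
        · rw [if_pos ⟨rfl, hb⟩, if_pos hb]
        · rw [if_neg (fun h => hb h.2), if_neg hb, mul_zero, zero_mul]
      · intro c _ hc
        rw [hVe, if_neg (fun h => hc h.1), mul_zero]
      · intro hb
        exact absurd (Finset.mem_univ _) hb
    rw [Finset.sum_congr rfl fun b _ => h1 b]
    rw [← Finset.sum_filter]
    symm
    refine Finset.sum_bij (fun a _ => em a) ?_ ?_ ?_ ?_
    · intro a _
      simp [em]
    · intro a _ b _ hab
      exact hem hab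
    · intro b hb
      rw [Finset.mem_filter] at hb
      exact ⟨⟨b, hb.2⟩, Finset.mem_univ _, rfl⟩
    · intro a _
      rfl
  let em2 : Fin (n + n) → Fin (n + n + k) := fun a => ⟨a, by omega⟩
  have hU2 : ∀ j j' : Fin (n + n), U (em2 j) (em2 j') = if j = j' then h else 0 := by
    intro j j'
    have hlt : ((em2 j : Fin (n + n + k)) : ℕ) < n + n ∧ ((em2 j' : Fin (n + n + k)) : ℕ) < n + n :=
      ⟨j.2, j'.2⟩
    rw [hU, W_pad_apply, dif_pos hlt]
    exact W_dsum_self n h j j'
  refine ⟨fun a j => X (em a) (em2 j), fun j j' => ?_⟩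
  have h1 := CStarMatrix.norm_entry_le_norm (M := star X * V * X - U) (i := em2 j) (j := em2 j')
  rw [CStarMatrix.sub_apply, key, hU2] at h1
  exact lt_of_le_of_lt h1 hX

theorem WQ_double {n : ℕ} {h : A} {ι : Type} [DecidableEq ι] [Fintype ι] (H : WQ n h ι)
    (H2 : WQ n h (Fin 2 × Fin n)) : WQ n h (Fin 2 × ι) := by
  intro ε hε
  obtain ⟨z', hz'⟩ := H (ε / 2) (by positivity)
  set K : ℝ := 1 + ∑ j, ∑ a, ‖z' a j‖ with hK
  have hK1 : 1 ≤ K := by
    have : 0 ≤ ∑ j, ∑ a, ‖z' a j‖ :=
      Finset.sum_nonneg fun j _ => Finset.sum_nonneg fun a _ => norm_nonneg _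
    linarith
  have hKj : ∀ j, ∑ a, ‖z' a j‖ ≤ K := by
    intro j
    have : ∑ a, ‖z' a j‖ ≤ ∑ j, ∑ a, ‖z' a j‖ :=
      Finset.single_le_sum (f := fun j => ∑ a, ‖z' a j‖)
        (fun j _ => Finset.sum_nonneg fun a _ => norm_nonneg _) (Finset.mem_univ j)
    linarith
  obtain ⟨w, hw⟩ := H2 (ε / (2 * K ^ 2)) (by positivity)
  refine ⟨fun i p => ∑ a, w i (p.1, a) * z' a p.2, ?_⟩
  rintro ⟨c, j⟩ ⟨c', j'⟩
  set E : Fin n → Fin n → A := fun a b =>
    ∑ i, star (w i (c, a)) * h * w i (c', b) - (if (c, a) = (c', b) then h else 0) with hE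
  have hEn : ∀ a b, ‖E a b‖ ≤ ε / (2 * K ^ 2) := fun a b => (hw (c, a) (c', b)).le
  have e1 : ∑ i, star (∑ a, w i (c, a) * z' a j) * h * (∑ a, w i (c', a) * z' a j') =
      ∑ a, ∑ b, star (z' a j) * (∑ i, star (w i (c, a)) * h * w i (c', b)) * z' b j' := by
    have h1 : ∀ i, star (∑ a, w i (c, a) * z' a j) * h * (∑ a, w i (c', a) * z' a j') =
        ∑ a, ∑ b, star (z' a j) * (star (w i (c, a)) * h * w i (c', b)) * z' b j' := by
      intro i
      rw [star_sum, Finset.sum_mul, Finset.sum_mul]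
      refine Finset.sum_congr rfl fun a _ => ?_
      rw [Finset.mul_sum]
      refine Finset.sum_congr rfl fun b _ => ?_
      rw [star_mul]
      simp only [mul_assoc]
    rw [Finset.sum_congr rfl fun i _ => h1 i, Finset.sum_comm]
    refine Finset.sum_congr rfl fun a _ => ?_
    rw [Finset.sum_comm]
    refine Finset.sum_congr rfl fun b _ => ?_
    rw [Finset.mul_sum, Finset.sum_mul]
  have e2 : ∑ a, ∑ b, star (z' a j) * (∑ i, star (w i (c, a)) * h * w i (c', b)) * z' b j' =
      (∑ a, ∑ b, star (z' a j) * E a b * z' b j') +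
        (if c = c' then ∑ a, star (z' a j) * h * z' a j' else 0) := by
    have h1 : (if c = c' then ∑ a, star (z' a j) * h * z' a j' else 0) =
        ∑ a, ∑ b, star (z' a j) * (if (c, a) = (c', b) then h else 0) * z' b j' := by
      by_cases hc : c = c'
      · subst hc
        rw [if_pos rfl]
        refine Finset.sum_congr rfl fun a _ => ?_
        rw [Finset.sum_eq_single a]
        · rw [if_pos rfl]
        · intro b _ hb
          rw [if_neg (by simpa using hb.symm), mul_zero, zero_mul]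
        · intro hb; exact absurd (Finset.mem_univ _) hb
      · rw [if_neg hc]
        symm
        refine Finset.sum_eq_zero fun a _ => Finset.sum_eq_zero fun b _ => ?_
        rw [if_neg (by simp [hc]), mul_zero, zero_mul]
    rw [h1, ← Finset.sum_add_distrib]
    refine Finset.sum_congr rfl fun a _ => ?_
    rw [← Finset.sum_add_distrib]
    refine Finset.sum_congr rfl fun b _ => ?_
    rw [hE, ← add_mul, ← mul_add, sub_add_cancel]
  have n1 : ‖∑ a, ∑ b, star (z' a j) * E a b * z' b j'‖ ≤ ε / 2 := by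
    have h1 : ‖∑ a, ∑ b, star (z' a j) * E a b * z' b j'‖ ≤
        ∑ a, ∑ b, ‖z' a j‖ * (ε / (2 * K ^ 2)) * ‖z' b j'‖ := by
      refine (norm_sum_le _ _).trans (Finset.sum_le_sum fun a _ => ?_)
      refine (norm_sum_le _ _).trans (Finset.sum_le_sum fun b _ => ?_)
      refine (norm_mul_le _ _).trans ?_
      gcongr
      refine (norm_mul_le _ _).trans ?_
      rw [norm_star]
      gcongr
      exact hEn a b
    have h2 : ∑ a, ∑ b, ‖z' a j‖ * (ε / (2 * K ^ 2)) * ‖z' b j'‖ =
        (∑ a, ‖z' a j‖) * (ε / (2 * K ^ 2)) * (∑ b, ‖z' b j'‖) := by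
      rw [Finset.sum_mul, Finset.sum_mul]
      refine Finset.sum_congr rfl fun a _ => ?_
      rw [Finset.mul_sum]
    rw [h2] at h1
    refine h1.trans ?_
    have h3 : (∑ a, ‖z' a j‖) * (ε / (2 * K ^ 2)) * (∑ b, ‖z' b j'‖) ≤
        K * (ε / (2 * K ^ 2)) * K := by
      have := hKj j
      have := hKj j'
      have h4 : 0 ≤ ∑ b, ‖z' b j'‖ := Finset.sum_nonneg fun a _ => norm_nonneg _
      gcongr
    refine h3.trans (le_of_eq ?_)
    have hK0 : K ≠ 0 := by linarith
    field_simp
  have n2 : ‖(if c = c' then ∑ a, star (z' a j) * h * z' a j' else 0) -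
      (if (c, j) = (c', j') then h else 0)‖ < ε / 2 := by
    by_cases hc : c = c'
    · subst hc
      have h1 := hz' j j'
      rw [if_pos rfl]
      have h2 : ((c, j) = (c, j')) ↔ j = j' := by simp
      rwa [if_congr h2 rfl rfl]
    · rw [if_neg hc, if_neg (by simp [hc])]
      simpa using half_pos hε
  simp only
  rw [e1, e2, add_sub_assoc]
  calc _ ≤ ‖∑ a, ∑ b, star (z' a j) * E a b * z' b j'‖ +
      ‖(if c = c' then ∑ a, star (z' a j) * h * z' a j' else 0) -
      (if (c, j) = (c', j') then h else 0)‖ := norm_add_le _ _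
    _ < ε / 2 + ε / 2 := by linarith
    _ = ε := by ring

end WPart

theorem wpi_elementwise (hA : WeaklyPurelyInfinite A) : ∃ n : ℕ, WPI A n := by
  obtain ⟨n, hn, H⟩ := hA
  refine ⟨n, fun h h0 M => ?_⟩
  have h1 : WQ n h (Fin (n + n)) := WQ_start (H h h0)
  have e : 2 * n = n + n := by ring
  have h2 : WQ n h (Fin 2 × Fin n) :=
    h1.of_injective (fun p => Fin.cast e (finProdFinEquiv p))
      (fun p q hpq => finProdFinEquiv.injective (Fin.cast_injective e hpq))
  have h3 : ∀ M : ℕ, ∃ M', M ≤ M' ∧ 1 ≤ M' ∧ WQ n h (Fin M') := by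
    intro M
    induction M with
    | zero => exact ⟨n + n, by omega, by omega, h1⟩
    | succ M ih =>
      obtain ⟨M', hM, hM', hQ⟩ := ih
      refine ⟨2 * M', by omega, by omega, ?_⟩
      exact (WQ_double hQ h2).of_injective finProdFinEquiv.symm finProdFinEquiv.symm.injective
  obtain ⟨M', hM, -, hQ⟩ := h3 M
  exact hQ.of_injective (Fin.castLE hM) (Fin.castLE_injective hM)

end Vale.Agent.P133F
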