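import Vale.Agent.P133F.Props
import Mathlib.Analysis.SpecialFunctions.ContinuousFunctionalCalculus.Rpow.Basic

/-! Lower bound for block X. -/

namespace Vale.Agent.P133F

open scoped CStarAlgebra ComplexOrder
open Vale.Agent.P133.Statement Filter Topology

universe u

variable {A : Type u} [NonUnitalCStarAlgebra A] [PartialOrder A] [StarOrderedRing A]

/-- Compression by `1 - F` preserves positivity. -/
theorem XL_compress (F b : A) (hF : star F = F) (hb : 0 ≤ b) :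
    0 ≤ b - F * b - b * F + F * b * F := by
  obtain ⟨c, hc⟩ := CStarAlgebra.nonneg_iff_eq_star_mul_self.mp hb
  have key : b - F * b - b * F + F * b * F = star (c - c * F) * (c - c * F) := by
    rw [hc, star_sub, star_mul, hF]
    noncomm_ring
  rw [key]
  exact star_mul_self_nonneg _

theorem XL_spec (t : A) (ht : 0 ≤ t) (h1 : ‖t‖ ≤ 1) (s : ℝ) (hs : s ∈ quasispectrum ℝ t) :
    0 ≤ s ∧ s ≤ 1 := by
  have hs0 : 0 ≤ s := quasispectrum_nonneg_of_nonneg t ht s hs
  have h3 := NonUnitalIsometricContinuousFunctionalCalculus.norm_quasispectrum_le t hs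
    (IsSelfAdjoint.of_nonneg ht)
  exact ⟨hs0, (le_abs_self s).trans (h3.trans h1)⟩

theorem XL_sq_le (t : A) (ht : 0 ≤ t) (h1 : ‖t‖ ≤ 1) : t * t ≤ t := by
  have hsa : IsSelfAdjoint t := .of_nonneg ht
  have h2 : t * t = cfcₙ (fun s : ℝ => s * s) t := by
    rw [cfcₙ_mul (fun s : ℝ => s) (fun s : ℝ => s) t, cfcₙ_id' ℝ t]
  conv_rhs => rw [← cfcₙ_id' ℝ t]
  rw [h2]
  refine cfcₙ_mono fun s hs => ?_
  obtain ⟨hs0, hs1⟩ := XL_spec t ht h1 s hs
  nlinarith

/-- The lower bound: if `g ≥ 0` vanishes at `0` and `2 g ≥ 1` on `[δ, 1]`, then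
`t² ≤ 2 t g(e) t + x` with `‖x‖ ≤ δ` for all `0 ≤ t ≤ e`. -/
theorem XL_main (e : A) (he : 0 ≤ e) (he1 : ‖e‖ ≤ 1) (g : ℝ → ℝ) (hg : Continuous g)
    (hg0 : g 0 = 0) (hgn : ∀ s, 0 ≤ g s) (δ : ℝ) (hδ : 0 < δ)
    (hg1 : ∀ s, δ ≤ s → s ≤ 1 → 1 ≤ 2 * g s) (t : A) (ht : 0 ≤ t) (hte : t ≤ e) :
    ∃ x : A, 0 ≤ x ∧ ‖x‖ ≤ δ ∧ t * t ≤ (2 : ℝ) • (t * cfcₙ g e * t) + x := by
  have hsa : IsSelfAdjoint e := .of_nonneg he
  have htsa : IsSelfAdjoint t := .of_nonneg ht
  have ht1 : ‖t‖ ≤ 1 := (CStarAlgebra.norm_le_norm_of_nonneg_of_le ht hte).trans he1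
  set W : ℝ → ℝ := fun s => min 1 (2 * g s) with hW
  set f : ℝ → ℝ := fun s => 1 - Real.sqrt (1 - W s) with hf
  have hWc : Continuous W := by fun_prop
  have hfc : Continuous f := by fun_prop
  have hW0 : W 0 = 0 := by simp [hW, hg0]
  have hf0 : f 0 = 0 := by simp [hf, hW0]
  have hW1 : ∀ s, W s ≤ 1 := fun s => min_le_left _ _
  have hWn : ∀ s, 0 ≤ W s := fun s => le_min zero_le_one (by linarith [hgn s])
  have hfsq : ∀ s, (1 - f s) * (1 - f s) = 1 - W s := by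
    intro s
    have : 1 - f s = Real.sqrt (1 - W s) := by simp [hf]
    rw [this, Real.mul_self_sqrt (by linarith [hW1 s])]
  set F : A := cfcₙ f e with hF
  have hFs : star F = F := (cfcₙ_predicate f e : IsSelfAdjoint (cfcₙ f e)).star_eq
  -- the remainder
  refine ⟨(t - F * t) |> fun y => star y * y, star_mul_self_nonneg _, ?_, ?_⟩
  · -- norm bound
    show ‖star (t - F * t) * (t - F * t)‖ ≤ δ
    rw [CStarRing.norm_star_mul_self, ← CStarRing.norm_self_mul_star]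
    have e1 : (t - F * t) * star (t - F * t)
        = t * t - F * (t * t) - t * t * F + F * (t * t) * F := by
      rw [star_sub, star_mul, hFs, htsa.star_eq]
      noncomm_ring
    have hle : (t - F * t) * star (t - F * t) ≤ e - F * e - e * F + F * e * F := by
      rw [e1]
      have h2 : t * t ≤ e := (XL_sq_le t ht ht1).trans hte
      have h3 := XL_compress F (e - t * t) hFs (sub_nonneg.mpr h2)
      rw [← sub_nonneg]
      refine h3.trans_eq ?_
      noncomm_ring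
    refine (CStarAlgebra.norm_le_norm_of_nonneg_of_le (mul_star_self_nonneg _) hle).trans ?_
    have e2 : e - F * e - e * F + F * e * F = cfcₙ (fun s => (1 - W s) * s) e := by
      have a1 : F * e = cfcₙ (fun s => f s * s) e := by
        rw [cfcₙ_mul f (fun s : ℝ => s) e (by fun_prop) hf0, cfcₙ_id' ℝ e]
      have a2 : e * F = cfcₙ (fun s => s * f s) e := by
        rw [cfcₙ_mul (fun s : ℝ => s) f e (by fun_prop) rfl (by fun_prop) hf0, cfcₙ_id' ℝ e]
      have a3 : F * e * F = cfcₙ (fun s => f s * s * f s) e := by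
        rw [a1, hF, ← cfcₙ_mul (fun s => f s * s) f e (by fun_prop) (by simp) (by fun_prop) hf0]
      have a4 : e = cfcₙ (fun s : ℝ => s) e := (cfcₙ_id' ℝ e).symm
      rw [a3, a2, a1]
      nth_rewrite 1 [a4]
      rw [← cfcₙ_sub (fun s : ℝ => s) (fun s => f s * s) e (by fun_prop) rfl (by fun_prop)
        (by simp)]
      rw [← cfcₙ_sub (fun s => s - f s * s) (fun s => s * f s) e (by fun_prop) (by simp)
        (by fun_prop) (by simp)]
      rw [← cfcₙ_add (fun s => s - f s * s - s * f s) (fun s => f s * s * f s) e (by fun_prop)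
        (by simp) (by fun_prop) (by simp)]
      congr 1
      funext s
      have := hfsq s
      linear_combination (s : ℝ) * this
    rw [e2]
    refine norm_cfcₙ_le fun s hs => ?_
    obtain ⟨hs0, hs1⟩ := XL_spec e he he1 s hs
    have h5 : 0 ≤ (1 - W s) * s := mul_nonneg (by linarith [hW1 s]) hs0
    rw [Real.norm_of_nonneg h5]
    by_cases hsd : δ ≤ s
    · have : W s = 1 := min_eq_left (hg1 s hsd hs1)
      rw [this]; simp [hδ.le]
    · push Not at hsd
      have : (1 - W s) * s ≤ 1 * s := by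
        apply mul_le_mul_of_nonneg_right _ hs0
        linarith [hWn s]
      linarith
  · -- the inequality
    show t * t ≤ (2 : ℝ) • (t * cfcₙ g e * t) + star (t - F * t) * (t - F * t)
    have e1 : star (t - F * t) * (t - F * t) = t * t - t * (F + F - F * F) * t := by
      rw [star_sub, star_mul, hFs, htsa.star_eq]
      noncomm_ring
    have e2 : F + F - F * F = cfcₙ W e := by
      rw [hF, ← cfcₙ_mul f f e (by fun_prop) hf0 (by fun_prop) hf0,
        ← cfcₙ_add f f e (by fun_prop) hf0 (by fun_prop) hf0,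
        ← cfcₙ_sub (fun s => f s + f s) (fun s => f s * f s) e (by fun_prop) (by simp [hf0])
          (by fun_prop) (by simp [hf0])]
      congr 1
      funext s
      have := hfsq s
      linear_combination -this
    rw [e1, e2]
    have h6 : cfcₙ W e ≤ (2 : ℝ) • cfcₙ g e := by
      rw [← cfcₙ_smul (2 : ℝ) g e (by fun_prop) hg0]
      refine cfcₙ_mono (fun s _ => ?_) (by fun_prop) (by fun_prop) hW0 (by simp [hg0])
      exact min_le_right (1 : ℝ) (2 * g s)
    have h7 : t * cfcₙ W e * t ≤ (2 : ℝ) • (t * cfcₙ g e * t) := by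
      have h8 := star_left_conjugate_le_conjugate h6 t
      rw [htsa.star_eq] at h8
      rwa [mul_smul_comm, smul_mul_assoc] at h8
    have h9 := sub_nonneg.mpr h7
    rw [← sub_nonneg]
    refine h9.trans_eq ?_
    abel

/-- Hat functions. -/
def hat (R r : ℕ) (t : ℝ) : ℝ := max 0 (1 - |R * t - r|)

theorem hat_continuous (R r : ℕ) : Continuous (hat R r) := by unfold hat; fun_prop

theorem hat_nonneg (R r : ℕ) (t : ℝ) : 0 ≤ hat R r t := le_max_left _ _

theorem hat_zero (R r : ℕ) (hr : 1 ≤ r) : hat R r 0 = 0 := by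
  unfold hat
  have : (1 : ℝ) ≤ r := by exact_mod_cast hr
  rw [mul_zero, zero_sub, abs_neg, abs_of_nonneg (by linarith)]
  exact max_eq_left (by linarith)

theorem hat_le_one (R r : ℕ) (t : ℝ) : hat R r t ≤ 1 := by
  unfold hat
  exact max_le zero_le_one (by linarith [abs_nonneg (R * t - r)])

/-- At a point `t ≥ 0` only the hats with index `⌊R t⌋` and `⌊R t⌋ + 1` can be nonzero. -/
theorem hat_eq (R r : ℕ) (t : ℝ) (ht : 0 ≤ t) :
    hat R r t = if r = ⌊R * t⌋₊ then 1 - (R * t - ⌊R * t⌋₊) else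
      if r = ⌊R * t⌋₊ + 1 then R * t - ⌊R * t⌋₊ else 0 := by
  have hRt : 0 ≤ R * t := mul_nonneg (Nat.cast_nonneg _) ht
  have h1 := Nat.floor_le hRt
  have h2 := Nat.lt_floor_add_one (R * t)
  set n := ⌊R * t⌋₊ with hn
  unfold hat
  split_ifs with ha hb
  · rw [ha, abs_of_nonneg (by linarith)]
    exact max_eq_right (by linarith)
  · rw [hb, abs_of_nonpos (by push_cast; linarith)]
    push_cast
    rw [max_eq_right (by linarith)]
    ring
  · apply max_eq_left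
    rcases lt_or_gt_of_ne ha with h | h
    · have : (r : ℝ) + 1 ≤ n := by exact_mod_cast h
      rw [abs_of_nonneg (by linarith)]
      linarith
    · have h3 : n + 2 ≤ r := by omega
      have : (n : ℝ) + 2 ≤ r := by exact_mod_cast h3
      rw [abs_of_nonpos (by linarith)]
      linarith

theorem hat_sum (R : ℕ) (t : ℝ) (ht : 0 ≤ t) (s : Finset ℕ) (f : ℝ → ℝ) (hf0 : f 0 = 0) :
    ∑ r ∈ s, f (hat R r t) = (if ⌊R * t⌋₊ ∈ s then f (1 - (R * t - ⌊R * t⌋₊)) else 0)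
      + (if ⌊R * t⌋₊ + 1 ∈ s then f (R * t - ⌊R * t⌋₊) else 0) := by
  have h : ∀ r, f (hat R r t) = (if r = ⌊R * t⌋₊ then f (1 - (R * t - ⌊R * t⌋₊)) else 0)
      + (if r = ⌊R * t⌋₊ + 1 then f (R * t - ⌊R * t⌋₊) else 0) := by
    intro r
    rw [hat_eq R r t ht]
    split_ifs with h1 h2
    · omega
    · simp
    · simp
    · simp [hf0]
  simp only [h, Finset.sum_add_distrib, Finset.sum_ite_eq']

/-- The sum of the squares of the hats with `2 ≤ r ≤ R` of parity `σ`, or of all of them. -/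
theorem hat_sq_sum_le (R : ℕ) (t : ℝ) (ht : 0 ≤ t) (s : Finset ℕ) :
    ∑ r ∈ s, hat R r t ^ 2 ≤ 1 := by
  have hRt : 0 ≤ R * t := mul_nonneg (Nat.cast_nonneg _) ht
  have h1 := Nat.floor_le hRt
  have h2 := Nat.lt_floor_add_one (R * t)
  rw [hat_sum R t ht s (fun x => x ^ 2) (by simp)]
  set θ := R * t - ⌊R * t⌋₊ with hθ
  have h3 : 0 ≤ θ := by linarith
  have h4 : θ ≤ 1 := by linarith
  have h5 : (if ⌊R * t⌋₊ ∈ s then (1 - θ) ^ 2 else 0) ≤ (1 - θ) ^ 2 := by
    split_ifs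
    · exact le_rfl
    · positivity
  have h6 : (if ⌊R * t⌋₊ + 1 ∈ s then θ ^ 2 else 0) ≤ θ ^ 2 := by
    split_ifs
    · exact le_rfl
    · positivity
  have h7 : (1 - θ) ^ 2 + θ ^ 2 ≤ 1 := by nlinarith
  linarith

theorem hat_sq_sum_ge (R : ℕ) (hR : 0 < R) (t : ℝ) (ht : 2 / R ≤ t) (ht1 : t ≤ 1) :
    1 ≤ 2 * ∑ r ∈ Finset.Icc 2 R, hat R r t ^ 2 := by
  have hR' : (0 : ℝ) < R := by exact_mod_cast hR
  have ht0 : 0 ≤ t := le_trans (by positivity) ht
  have hRt : 0 ≤ R * t := mul_nonneg (Nat.cast_nonneg _) ht0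
  have h1 := Nat.floor_le hRt
  have h2 := Nat.lt_floor_add_one (R * t)
  have h3 : (2 : ℝ) ≤ R * t := by
    rw [div_le_iff₀ hR'] at ht
    linarith
  have h4 : R * t ≤ R := by nlinarith
  have h5 : 2 ≤ ⌊R * t⌋₊ := Nat.le_floor (by exact_mod_cast h3)
  have h6 : ⌊R * t⌋₊ ≤ R := by
    have : ((⌊R * t⌋₊ : ℕ) : ℝ) ≤ R := h1.trans h4
    exact_mod_cast this
  rw [hat_sum R t ht0 _ (fun x => x ^ 2) (by simp), if_pos (Finset.mem_Icc.mpr ⟨h5, h6⟩)]
  by_cases h7 : ⌊R * t⌋₊ = R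
  · have h8 : R * t - ⌊R * t⌋₊ = 0 := by
      have : ((⌊R * t⌋₊ : ℕ) : ℝ) = R := by exact_mod_cast h7
      linarith
    rw [if_neg (by rw [Finset.mem_Icc]; omega), h8]
    norm_num
  · rw [if_pos (Finset.mem_Icc.mpr (by omega))]
    set θ := R * t - ⌊R * t⌋₊ with hθ
    have : 0 ≤ (1 - 2 * θ) ^ 2 := sq_nonneg _
    show 1 ≤ 2 * ((1 - θ) ^ 2 + θ ^ 2)
    nlinarith

/-- Lower bound for block X. -/
theorem X_lower (e : A) (he : 0 ≤ e) (he1 : ‖e‖ ≤ 1) (R : ℕ) (hR : 0 < R) :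
    0 ≤ cfcₙ (fun s => ∑ r ∈ Finset.Icc 2 R, hat R r s ^ 2) e ∧
    ‖cfcₙ (fun s => ∑ r ∈ Finset.Icc 2 R, hat R r s ^ 2) e‖ ≤ 1 ∧
    ∀ t : A, 0 ≤ t → t ≤ e → ∃ x : A, 0 ≤ x ∧ ‖x‖ ≤ 2 / R ∧
      t * t ≤ (2 : ℝ) • (t * cfcₙ (fun s => ∑ r ∈ Finset.Icc 2 R, hat R r s ^ 2) e * t) + x := by
  have hcont : Continuous (fun s => ∑ r ∈ Finset.Icc 2 R, hat R r s ^ 2) :=
    continuous_finsetSum _ fun r _ => (hat_continuous R r).pow 2
  have h0 : (fun s => ∑ r ∈ Finset.Icc 2 R, hat R r s ^ 2) 0 = 0 := by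
    refine Finset.sum_eq_zero fun r hr => ?_
    rw [hat_zero R r (by have := (Finset.mem_Icc.mp hr).1; omega)]
    simp
  have hn : ∀ s, 0 ≤ (fun s => ∑ r ∈ Finset.Icc 2 R, hat R r s ^ 2) s := fun s =>
    Finset.sum_nonneg fun r _ => by positivity
  refine ⟨cfcₙ_nonneg fun s _ => hn s, ?_, ?_⟩
  · refine norm_cfcₙ_le fun s hs => ?_
    obtain ⟨hs0, _⟩ := XL_spec e he he1 s hs
    rw [Real.norm_of_nonneg (hn s)]
    exact hat_sq_sum_le R s hs0 _
  · intro t ht hte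
    exact XL_main e he he1 _ hcont h0 hn (2 / R) (by positivity)
      (fun s h1 h2 => hat_sq_sum_ge R hR s h1 h2) t ht hte

end Vale.Agent.P133F
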